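import Vale.Agent.P338.H931.Prep
import Vale.Agent.P338.H463.CallReg

/-!
# The fast operation with time budget and fallback
-/

set_option linter.unusedSectionVars false
set_option linter.unusedSimpArgs false

namespace Vale.Agent.P338

open Function (update update_self update_of_ne)

/-- Registers that are empty between operations. -/
def Reg.work : Reg → Bool
  | .Xsave | .cx | .cy | .cz | .fl | .rE | .rM' | .rE' => true
  | .rMu | .rK | .r10b | .r11b | .rnK | .rG | .rRW | .rHZ | .rKR | .rRot => true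
  | .rt | .r2t | .r2tn | .aA | .aB => true
  | .t0 | .t1 | .t2 | .t3 | .t4 | .t5 | .t6 | .t7 | .t8 | .t9
  | .t10 | .t11 | .t12 | .t13 | .t14 | .t15 | .t16 | .t17 | .t18 | .t19 => true
  | _ => false

/-- Temporaries. -/
def Reg.tmp : Reg → Bool
  | .aA | .aB => true
  | .t0 | .t1 | .t2 | .t3 | .t4 | .t5 | .t6 | .t7 | .t8 | .t9
  | .t10 | .t11 | .t12 | .t13 | .t14 | .t15 | .t16 | .t17 | .t18 | .t19 => true
  | _ => false

/-- All working registers are empty. -/
def Clean (s : Store Reg Bool) : Prop := ∀ r, Reg.work r = true → s r = []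

/-- All temporaries are empty. -/
def TmpClean (s : Store Reg Bool) : Prop := ∀ r, Reg.tmp r = true → s r = []

/-- The rulers of the fast operation have their values. -/
structure Rul (s : Store Reg Bool) (n b : ℕ) : Prop where
  rn : s .rn = zer n
  rB : s .rB = zer b
  rK : s .rK = zer (2 * b)
  r10b : s .r10b = zer (10 * b)
  r11b : s .r11b = zer (11 * b)
  rnK : s .rnK = zer (n / (2 * b))
  rG : s .rG = zer (n / (2 * b * b))
  rRW : s .rRW = zer (E.rowW n b)
  rHZ : s .rHZ = zer (E.rowW n b - 2 * b - 1)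
  rKR : s .rKR = zer (2 * b * E.rowW n b)
  rRot : s .rRot = zer (2 * b * b * n)

/-- The base programs used by the fast operation, with their specifications. -/
structure Parts where
  F1 : Prog Reg Bool
  KER1 : Prog Reg Bool
  KER2 : Prog Reg Bool
  FILLx : Prog Reg Bool
  FILLy : Prog Reg Bool
  F2 : Prog Reg Bool
  F3 : Prog Reg Bool
  FIX : Prog Reg Bool
  BITOP : Prog Reg Bool
  c : ℕ
  hF1 : ∀ (s : Store Reg Bool) (mu n Gr m : ℕ) (x : ℕ → ℕ → ℕ → List Bool),
    n = 2 * 2 ^ mu * 2 ^ mu * Gr → 0 < Gr → n * n ≤ m → TmpClean s → Rul s n (2 ^ mu) → s .cx = [] →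
    (∀ g i w, g < Gr → i < 2 * 2 ^ mu → w < n → (x g i w).length = 2 ^ mu) →
    s .X = E.wordS n (2 ^ mu) Gr x →
    Runs F1 s (update (update s .X []) .cx (E.f1 n (2 ^ mu) Gr x)) (c * m)
  hKER1 : ∀ (s : Store Reg Bool) (mu n Gr m : ℕ),
    n = 2 * 2 ^ mu * 2 ^ mu * Gr → 0 < Gr → n * n ≤ m → TmpClean s → Rul s n (2 ^ mu) →
    s .cy = [] →
    Runs KER1 s (update s .cy (E.kernel n (2 ^ mu) (E.eh (2 ^ mu)))) (c * m)
  hKER2 : ∀ (s : Store Reg Bool) (mu n Gr m : ℕ),
    n = 2 * 2 ^ mu * 2 ^ mu * Gr → 0 < Gr → n * n ≤ m → TmpClean s → Rul s n (2 ^ mu) →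
    s .cy = [] →
    Runs KER2 s (update s .cy (E.kernel n (2 ^ mu) (E.eh' (2 ^ mu)))) (c * m)
  hFILLx : ∀ (s : Store Reg Bool) (m : ℕ), 1 ≤ m → TmpClean s → s .rM = zer m →
    (s .cx).length ≤ m → Runs FILLx s (update s .cx (fillTo m (s .cx))) (c * m)
  hFILLy : ∀ (s : Store Reg Bool) (m : ℕ), 1 ≤ m → TmpClean s → s .rM = zer m →
    (s .cy).length ≤ m → Runs FILLy s (update s .cy (fillTo m (s .cy))) (c * m)
  hF2 : ∀ (s : Store Reg Bool) (mu n Gr m : ℕ) (y : ℕ → ℕ → ℕ → List Bool) (rest : List Bool),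
    n = 2 * 2 ^ mu * 2 ^ mu * Gr → 0 < Gr → n * n ≤ m → TmpClean s → Rul s n (2 ^ mu) → s .cx = [] →
    (∀ g r w, g < Gr → r < 4 * 2 ^ mu → w < n → (y g r w).length = 13 * 2 ^ mu) →
    s .cz = E.slotS n (2 ^ mu) Gr y ++ rest → (s .cz).length ≤ 2 * m →
    Runs F2 s (update (update s .cz []) .cx (E.f2 n (2 ^ mu) Gr y)) (c * m)
  hF3 : ∀ (s : Store Reg Bool) (mu n Gr m : ℕ) (y : ℕ → ℕ → ℕ → List Bool) (rest : List Bool),
    n = 2 * 2 ^ mu * 2 ^ mu * Gr → 0 < Gr → n * n ≤ m → TmpClean s → Rul s n (2 ^ mu) → s .X = [] →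
    (∀ g r w, g < Gr → r < 4 * 2 ^ mu → w < n → (y g r w).length = 13 * 2 ^ mu) →
    s .cz = E.slotS n (2 ^ mu) Gr y ++ rest → (s .cz).length ≤ 2 * m →
    Runs F3 s (update (update s .cz []) .X (E.f3 n (2 ^ mu) Gr y)) (c * m)
  hFIX : ∀ (s : Store Reg Bool) (mu n Gr m : ℕ),
    n = 2 * 2 ^ mu * 2 ^ mu * Gr → 0 < Gr → n * n ≤ m → TmpClean s → Rul s n (2 ^ mu) →
    (s .X).length = n * n →
    Runs FIX s (update s .X (E.fix n (2 ^ mu) Gr (s .X))) (c * m)
  hBITOP : ∀ (s : Store Reg Bool) (L t m : ℕ), t < L → 2 ^ L * 2 ^ L ≤ m → TmpClean s →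
    s .rn = zer (2 ^ L) → s .r2t = zer (2 ^ t) → s .r2tn = zer (2 ^ t * 2 ^ L) →
    (s .X).length = 2 ^ L * 2 ^ L →
    Runs BITOP s (update s .X (E.bitop (2 ^ L) t (s .X))) (c * m)

section states

/-- State of the fast operation. -/
structure FV where
  e : ℕ
  X : List Bool
  Xs : List Bool
  cx : List Bool
  cy : List Bool
  cz : List Bool
  fl : List Bool

/-- The store `s` with the registers of the fast operation set. -/
def fs (s : Store Reg Bool) (v : RV) (f : FV) : Store Reg Bool := fun r => match r with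
  | .X => f.X
  | .Xsave => f.Xs
  | .cx => f.cx
  | .cy => f.cy
  | .cz => f.cz
  | .fl => f.fl
  | .rE => zer f.e
  | r => setRV s v r

variable (s : Store Reg Bool) (v : RV) (f : FV)

theorem fs_X (l : List Bool) : update (fs s v f) .X l = fs s v { f with X := l } := by
  funext r; cases r <;> rfl
theorem fs_Xs (l : List Bool) : update (fs s v f) .Xsave l = fs s v { f with Xs := l } := by
  funext r; cases r <;> rfl
theorem fs_cx (l : List Bool) : update (fs s v f) .cx l = fs s v { f with cx := l } := by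
  funext r; cases r <;> rfl
theorem fs_cy (l : List Bool) : update (fs s v f) .cy l = fs s v { f with cy := l } := by
  funext r; cases r <;> rfl
theorem fs_cz (l : List Bool) : update (fs s v f) .cz l = fs s v { f with cz := l } := by
  funext r; cases r <;> rfl
theorem fs_fl (l : List Bool) : update (fs s v f) .fl l = fs s v { f with fl := l } := by
  funext r; cases r <;> rfl
theorem fs_e (x : ℕ) : update (fs s v f) .rE (zer x) = fs s v { f with e := x } := by
  funext r; cases r <;> rfl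

end states

end Vale.Agent.P338
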