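import Vale.Agent.P338.Reg
import Vale.Agent.P338.CoreSpec
import Vale.Agent.P338.H763.Lib

/-!
# Unary arithmetic on rulers

A ruler of length `n` is the stack `zer n`.
-/

set_option linter.unusedSectionVars false
set_option linter.unusedSimpArgs false

namespace Vale.Agent.P338

open Function (update update_self update_of_ne)

variable {R : Type} [DecidableEq R]

theorem zer_def (n : ℕ) : zer n = List.replicate n false := rfl

theorem zer_succ (n : ℕ) : zer (n + 1) = false :: zer n := rfl

theorem zer_zero : zer 0 = [] := rfl

theorem zer_length (n : ℕ) : (zer n).length = n := List.length_replicate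

theorem zer_reverse (n : ℕ) : (zer n).reverse = zer n := List.reverse_replicate ..

theorem zer_append (a b : ℕ) : zer a ++ zer b = zer (a + b) := by
  simp [zer, List.replicate_append_replicate]

namespace Prog

/-- `q := q + r` (scratch `t`). -/
def addTo (r q t : R) : Prog R Bool := fill r t q false

/-- `c := c + a * b`, preserving `a`, `b` (scratch `t₁ t₂`). -/
def mulTo (a b c t₁ t₂ : R) : Prog R Bool := forR a t₁ (addTo b c t₂)

/-- `dst := dst + src / r`, `src := 0` (scratch `q`), for `r ∣ src`, `r > 0`. -/
def divTo (src r dst q : R) : Prog R Bool :=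
  whileNE src (.seq (skip r q src) (push dst false))

/-- `dst := dst + ⌈src / 2⌉`, `src := 0`. -/
def halfTo (src dst : R) : Prog R Bool :=
  whileNE src (.seq (pop src) (.seq (pop src) (push dst false)))

/-- `r := 2 * r` (scratch `t u`). -/
def dbl (r t u : R) : Prog R Bool := .seq (copy r t u) (flip u r)

end Prog

namespace Runs

/-- `q := q + r`. -/
theorem addTo {r q t : R} (hrq : r ≠ q) (hrt : r ≠ t) (hqt : q ≠ t) {s : Store R Bool}
    {a b : ℕ} (hr : s r = zer a) (hq : s q = zer b) (ht : s t = []) :
    Runs (Prog.addTo r q t) s (update s q (zer (a + b))) (5 * a + 2) := by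
  have h := Runs.fill (s := s) (r := r) (q := t) (dst := q) (a := false) (b := false) (n := a)
    hrt hrq hqt.symm hr ht
  refine h.conv ?_ le_rfl
  rw [hq]
  congr 1
  exact zer_append a b

/-- `c := c + a * b`. -/
theorem mulTo {a b c t₁ t₂ : R} (hab : a ≠ b) (hac : a ≠ c) (ha1 : a ≠ t₁) (ha2 : a ≠ t₂)
    (hbc : b ≠ c) (hb1 : b ≠ t₁) (hb2 : b ≠ t₂) (hc1 : c ≠ t₁) (hc2 : c ≠ t₂) (h12 : t₁ ≠ t₂)
    {s : Store R Bool} {x y z : ℕ} (ha : s a = zer x) (hb : s b = zer y) (hc : s c = zer z)
    (h1 : s t₁ = []) (h2 : s t₂ = []) :
    Runs (Prog.mulTo a b c t₁ t₂) s (update s c (zer (x * y + z)))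
      (x * (5 * y + 6) + 2) := by
  have h := Runs.forR (p := Prog.addTo b c t₂) (r := a) (q := t₁) ha1 (a := false) (n := x)
    (fun i => update s c (zer (i * y + z))) (5 * y + 2) (by simp [hac, ha, zer])
    (by simp [hc1.symm, h1])
    (by
      intro i hi
      refine (Runs.addTo (a := y) (b := i * y + z) hbc hb2 hc2 ?_ ?_ ?_).conv ?_ le_rfl
      · simp [hb1, hab.symm, hbc, hb]
      · simp [hc1, hac.symm]
      · simp [h12.symm, ha2.symm, hc2.symm, h2]
      · rw [show y + (i * y + z) = (i + 1) * y + z by ring]
        funext k
        by_cases g1 : k = c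
        · subst g1; simp [hc1, hac.symm]
        · simp [Function.update_apply, g1])
  have h0 : update s c (zer (0 * y + z)) = s := by
    rw [Nat.zero_mul, Nat.zero_add, ← hc, Function.update_eq_self]
  simp only [h0] at h
  refine h.conv ?_ (by ring_nf; omega)
  funext k
  by_cases g1 : k = t₁
  · subst g1; simp [hc1.symm, h1]
  · by_cases g2 : k = a
    · subst g2; simp [ha1, hac, ha, zer]
    · simp [g1, g2, Function.update_apply]

/-- Division without remainder. -/
theorem divTo {src r dst q : R} (hsr : src ≠ r) (hsd : src ≠ dst) (hsq : src ≠ q) (hrd : r ≠ dst)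
    (hrq : r ≠ q) (hdq : dst ≠ q) {s : Store R Bool} {x y z : ℕ} (hy : 0 < y)
    (hsrc : s src = zer (x * y)) (hr : s r = zer y) (hd : s dst = zer z) (hq : s q = []) :
    Runs (Prog.divTo src r dst q) s (update (update s src []) dst (zer (x + z)))
      (x * (5 * y + 4) + 1) := by
  have h := Runs.loop_family (t := fun t : R → Option Bool => (t src).isSome)
    (body := .seq (.skip r q src) (.push dst false))
    (fun i => update (update s src (zer ((x - i) * y))) dst (zer (i + z))) x
    (fun _ => 5 * y + 3)
    (by
      intro i hi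
      have : 0 < (x - i) * y := Nat.mul_pos (by omega) hy
      obtain ⟨d, hd'⟩ := Nat.exists_eq_succ_of_ne_zero this.ne'
      simp [Store.tops, hsd, hd', zer_succ])
    (by simp [Store.tops, hsd, zer])
    (by
      intro i hi
      have e1 : (x - i) * y = y + (x - (i + 1)) * y := by
        have : x - i = 1 + (x - (i + 1)) := by omega
        rw [this, Nat.add_mul, Nat.one_mul]
      have h1 := Runs.skip (s := update (update s src (zer ((x - i) * y))) dst (zer (i + z)))
        (r := r) (q := q) (src := src) hrq hsr.symm hsq.symm (a := false) (n := y)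
        (u := zer y) (v := zer ((x - (i + 1)) * y))
        (by simp [hsr.symm, hrd, hr, zer]) (by simp [hdq.symm, hsq.symm, hq])
        (by simp [hsd, e1, zer_append]) (zer_length y)
      refine (h1.seq (Runs.push dst false _)).conv ?_ (by omega)
      funext k
      by_cases g1 : k = dst
      · subst g1
        simp only [update_self, ← zer_succ]
        rw [update_of_ne hsd.symm, update_self, ← zer_succ, show i + z + 1 = i + 1 + z by omega]
      · by_cases g2 : k = src
        · subst g2; simp [hsd, g1]
        · simp [g1, g2, Function.update_apply])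
  have h0 : update (update s src (zer ((x - 0) * y))) dst (zer (0 + z)) = s := by
    rw [Nat.sub_zero, ← hsrc, Function.update_eq_self, Nat.zero_add, ← hd,
      Function.update_eq_self]
  simp only [h0] at h
  refine h.conv ?_ ?_
  · simp [zer]
  · rw [Finset.sum_const, Finset.card_range, smul_eq_mul]

/-- `dst := dst + ⌈src / 2⌉`, for an odd number `2 * x + 1`. -/
theorem halfTo {src dst : R} (hsd : src ≠ dst) {s : Store R Bool} {x z : ℕ}
    (hsrc : s src = zer (2 * x + 1)) (hd : s dst = zer z) :
    Runs (Prog.halfTo src dst) s (update (update s src []) dst (zer (x + 1 + z)))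
      (4 * (x + 1) + 1) := by
  have h := Runs.loop_family (t := fun t : R → Option Bool => (t src).isSome)
    (body := .seq (.pop src) (.seq (.pop src) (.push dst false)))
    (fun i => update (update s src (zer (2 * x + 1 - 2 * i))) dst (zer (i + z))) (x + 1)
    (fun _ => 3)
    (by
      intro i hi
      obtain ⟨d, hd'⟩ := Nat.exists_eq_succ_of_ne_zero (show 2 * x + 1 - 2 * i ≠ 0 by omega)
      simp [Store.tops, hsd, hd', zer_succ])
    (by
      have : 2 * x + 1 - 2 * (x + 1) = 0 := by omega
      simp [Store.tops, hsd, this, zer])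
    (by
      intro i hi
      refine ((Runs.pop src _).seq ((Runs.pop src _).seq (Runs.push dst false _))).conv ?_
        (by omega)
      funext k
      by_cases g1 : k = dst
      · subst g1
        simp only [update_self, ← zer_succ]
        rw [update_of_ne hsd.symm, update_of_ne hsd.symm, update_self, ← zer_succ,
          show i + z + 1 = i + 1 + z by omega]
      · by_cases g2 : k = src
        · subst g2
          simp only [update_of_ne hsd, update_self, zer_def, List.tail_replicate]
          rw [show 2 * x + 1 - 2 * i - 1 - 1 = 2 * x + 1 - 2 * (i + 1) by omega]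
        · simp [g1, g2, Function.update_apply])
  have h0 : update (update s src (zer (2 * x + 1 - 2 * 0))) dst (zer (0 + z)) = s := by
    rw [Nat.mul_zero, Nat.sub_zero, ← hsrc, Function.update_eq_self, Nat.zero_add, ← hd,
      Function.update_eq_self]
  simp only [h0] at h
  refine h.conv ?_ ?_
  · have : 2 * x + 1 - 2 * (x + 1) = 0 := by omega
    rw [this]; rfl
  · rw [Finset.sum_const, Finset.card_range, smul_eq_mul]
    omega

/-- Doubling. -/
theorem dbl {r t u : R} (hrt : r ≠ t) (hru : r ≠ u) (htu : t ≠ u) {s : Store R Bool} {x : ℕ}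
    (hr : s r = zer x) (ht : s t = []) (hu : s u = []) :
    Runs (Prog.dbl r t u) s (update s r (zer (2 * x))) (6 * x + 3) := by
  have h1 := Runs.copy (s := s) (r := r) (q := t) (dst := u) hrt hru htu ht
  have h2 := Runs.flip (r := u) (q := r) hru.symm (update s u (s r ++ s u))
  refine (h1.seq h2).conv ?_ ?_
  · funext k
    by_cases g1 : k = r
    · subst g1
      simp [hru, hr, hu, zer_reverse, zer_append]; congr 1; ring
    · by_cases g2 : k = u
      · subst g2; simp [g1, hu]
      · simp [g1, g2]
  · simp [hr, hu, zer_length]; omega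

end Runs

end Vale.Agent.P338
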