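import Vale.Agent.P338.CoreSpecE

/-!
# Lists as concatenations of chunks
-/

namespace Vale.Agent.P338

theorem cat_zero' (f : ℕ → List Bool) : cat 0 f = [] := rfl

theorem cat_succ' (n : ℕ) (f : ℕ → List Bool) : cat (n + 1) f = cat n f ++ f n := by
  simp [cat, List.range_succ]

theorem cat_congr' {n : ℕ} {f g : ℕ → List Bool} (h : ∀ i < n, f i = g i) :
    cat n f = cat n g := by
  induction n with
  | zero => rfl
  | succ n ih => rw [cat_succ', cat_succ', ih fun i hi => h i (by omega), h n (by omega)]

theorem cat_length' {n p : ℕ} {f : ℕ → List Bool} (h : ∀ i < n, (f i).length = p) :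
    (cat n f).length = n * p := by
  induction n with
  | zero => simp [cat]
  | succ n ih =>
    rw [cat_succ', List.length_append, ih fun i hi => h i (by omega), h n (by omega)]
    ring

theorem cat_add' (m n : ℕ) (f : ℕ → List Bool) :
    cat (m + n) f = cat m f ++ cat n fun i => f (m + i) := by
  induction n with
  | zero => simp [cat]
  | succ n ih => rw [← Nat.add_assoc, cat_succ', ih, cat_succ', List.append_assoc]

/-- Splitting an index into two digits. -/
theorem cat_mul' (m n : ℕ) (f : ℕ → List Bool) :
    cat (m * n) f = cat m fun i => cat n fun j => f (i * n + j) := by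
  induction m with
  | zero => simp [cat]
  | succ m ih => rw [Nat.succ_mul, cat_add', ih, cat_succ']

/-- A list as the concatenation of its chunks. -/
theorem cat_chunks (P : List Bool) (W N : ℕ) :
    (cat N fun q => (P.drop (q * W)).take W) = P.take (N * W) := by
  induction N with
  | zero => simp [cat]
  | succ N ih => rw [cat_succ', ih, Nat.succ_mul, List.take_add]

theorem zer_length' (n : ℕ) : (zer n).length = n := List.length_replicate

namespace E

theorem wordS_wordsOf {n b Gr : ℕ} {X : List Bool} (h : X.length = Gr * (2 * b) * n * b) :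
    wordS n b Gr (wordsOf n b X) = X := by
  unfold wordS wordsOf
  rw [← cat_mul' Gr (2 * b) fun q => cat n fun w => (X.drop ((q * n + w) * b)).take b,
    ← cat_mul' (Gr * (2 * b)) n fun q => (X.drop (q * b)).take b, cat_chunks]
  exact List.take_of_length_le (by omega)

theorem slotS_slotsOf {n b Gr : ℕ} (P : List Bool) :
    slotS n b Gr (slotsOf n b P) = P.take (Gr * (4 * b) * n * (13 * b)) := by
  unfold slotS slotsOf
  rw [← cat_mul' Gr (4 * b) fun q => cat n fun w =>
      (P.drop ((q * n + w) * (13 * b))).take (13 * b),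
    ← cat_mul' (Gr * (4 * b)) n fun q => (P.drop (q * (13 * b))).take (13 * b), cat_chunks]

theorem idx3_lt {A B C a b c : ℕ} (ha : a < A) (hb : b < B) (hc : c < C) :
    (a * B + b) * C + c < A * B * C := by
  have h1 : a * B + b + 1 ≤ A * B := by
    calc a * B + b + 1 ≤ a * B + B := by omega
      _ = (a + 1) * B := by ring
      _ ≤ A * B := Nat.mul_le_mul_right _ ha
  calc (a * B + b) * C + c < (a * B + b) * C + C := by omega
    _ = (a * B + b + 1) * C := by ring
    _ ≤ A * B * C := Nat.mul_le_mul_right _ h1

theorem chunk_length {P : List Bool} {q N W : ℕ} (hq : q < N) (h : N * W ≤ P.length) :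
    ((P.drop (q * W)).take W).length = W := by
  rw [List.length_take, List.length_drop]
  have : (q + 1) * W ≤ N * W := Nat.mul_le_mul_right _ hq
  rw [Nat.add_mul, Nat.one_mul] at this
  omega

theorem wordsOf_length {n b Gr : ℕ} {X : List Bool} (h : X.length = Gr * (2 * b) * n * b)
    {g i w : ℕ} (hg : g < Gr) (hi : i < 2 * b) (hw : w < n) :
    (wordsOf n b X g i w).length = b :=
  chunk_length (idx3_lt hg hi hw) h.ge

theorem slotsOf_length {n b Gr : ℕ} {P : List Bool}
    (h : Gr * (4 * b) * n * (13 * b) ≤ P.length)
    {g r w : ℕ} (hg : g < Gr) (hr : r < 4 * b) (hw : w < n) :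
    (slotsOf n b P g r w).length = 13 * b :=
  chunk_length (idx3_lt hg hr hw) h

theorem slot1_length {b a : ℕ} {x : List Bool} (ha : a ≤ 2 * b) (hx : x.length = b) :
    (slot1 b a x).length = 13 * b := by
  simp only [slot1, List.length_append, zer_length', hx]; omega

theorem slot2_length {b a : ℕ} {y : List Bool} (ha : a ≤ 2 * b) (hy : y.length = 13 * b) :
    (slot2 b a y).length = 13 * b := by
  simp only [slot2, List.length_append, zer_length', List.length_take, hy]; omega

theorem lbits_length' (w x : ℕ) : (lbits w x).length = w := by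
  induction w generalizing x with
  | zero => rfl
  | succ w ih => simp [lbits, ih]

theorem ex_le' (b : ℕ) (hb : 0 < b) (e : ℤ) : ex b e < 2 * b := by
  unfold ex
  have h1 := Int.emod_nonneg e (b := 2 * (b : ℤ)) (by omega)
  have h2 := Int.emod_lt_of_pos e (b := 2 * (b : ℤ)) (by omega)
  omega

theorem f1_length {n b Gr : ℕ} (hb : 0 < b) {x : ℕ → ℕ → ℕ → List Bool}
    (hx : ∀ g i w, g < Gr → i < 2 * b → w < n → (x g i w).length = b) :
    (f1 n b Gr x).length = Gr * (2 * b * (n * (13 * b)) + 2 * b * rowW n b) := by
  unfold f1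
  refine cat_length' fun g hg => ?_
  rw [List.length_append, zer_length', cat_length' (p := n * (13 * b)) fun i hi => ?_]
  exact cat_length' fun w hw => slot1_length (ex_le' b hb _).le (hx g i w hg hi hw)

theorem f2_length {n b Gr : ℕ} (hb : 0 < b) (hn : 2 * b ∣ n) {y : ℕ → ℕ → ℕ → List Bool}
    (hy : ∀ g r w, g < Gr → r < 4 * b → w < n → (y g r w).length = 13 * b) :
    (f2 n b Gr y).length = Gr * (2 * b * (n * (13 * b)) + 2 * b * rowW n b) := by
  unfold f2
  refine cat_length' fun g hg => ?_
  rw [List.length_append, zer_length', cat_length' (p := n * (13 * b)) fun k hk => ?_]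
  rw [cat_length' (p := 2 * b * (13 * b)) fun w' hw' => ?_]
  · obtain ⟨c, rfl⟩ := hn
    rw [Nat.mul_div_cancel_left _ (by omega)]; ring
  · refine cat_length' fun d hd => slot2_length (ex_le' b hb _).le (hy g _ _ hg (by omega) ?_)
    obtain ⟨c, rfl⟩ := hn
    rw [Nat.mul_div_cancel_left _ (by omega)] at hw'
    calc w' * (2 * b) + d < w' * (2 * b) + 2 * b := by omega
      _ = (w' + 1) * (2 * b) := by ring
      _ ≤ c * (2 * b) := Nat.mul_le_mul_right _ hw'
      _ = 2 * b * c := by ring

theorem f3_length {n b Gr : ℕ} (y : ℕ → ℕ → ℕ → List Bool) :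
    (f3 n b Gr y).length = Gr * (2 * b * (n * b)) := by
  unfold f3
  refine cat_length' fun g _ => cat_length' fun j _ => cat_length' fun w _ => ?_
  exact lbits_length' _ _

theorem kernel_length {n b : ℕ} {e : ℕ → ℕ} (he : ∀ m < 4 * b, e m < rowW n b) :
    (kernel n b e).length = 4 * b * rowW n b := by
  unfold kernel
  refine cat_length' fun m hm => ?_
  have := he m hm
  simp only [List.length_append, zer_length', List.length_singleton]
  omega

theorem cat_length_of {n p : ℕ} {f : ℕ → List Bool} (h : ∀ i < n, (f i).length = p) :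
    (cat n f).length = n * p := cat_length' h

end E

end Vale.Agent.P338
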