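import Vale.Agent.P338.H931.PartsE
import Vale.Agent.P338.H932.LevelsReg
import Vale.Agent.P338.H932.Cost
import Vale.Agent.P338.H933.MainGlue

/-!
# The fast operation in the form used by the level loop
-/

set_option linter.unusedSimpArgs false

namespace Vale.Agent.P338

open Function (update update_self update_of_ne)

/-- Rulers `rMu`, `rE` from `rLam`; `rB` is cleared. -/
def preE : Prog Reg Bool :=
  .seq (.clear .rB) <| .seq (.copy .rLam .t0 .t1) <| .seq (.halfTo .t1 .rMu) <|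
    .seq (.pop .rMu) (.flip .rLam .rE)

/-- Inverse of `preE`. -/
def postE : Prog Reg Bool := .seq powB <| .seq (.clear .rMu) (.flip .rE .rLam)

/-- The fast operation for the level loop. -/
noncomputable def fastE (A : Machine) : Prog (Reg ⊕ Sim.AReg A) (Bool ⊕ Sim.ASym A) :=
  .seq (preE.lift _ _) <| .seq (fastOp partsE A) (postE.lift _ _)

/-- The store `s` with some registers set. -/
def es (s : Store Reg Bool) (X : List Bool) (lam e mu B t : ℕ) : Store Reg Bool := fun r =>
  match r with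
  | .X => X
  | .rLam => zer lam
  | .rE => zer e
  | .rMu => zer mu
  | .rB => zer B
  | .t1 => zer t
  | r => s r

section

variable {s : Store Reg Bool} {X : List Bool} {lam e mu B t : ℕ}

theorem es_lam (x : ℕ) : update (es s X lam e mu B t) .rLam (zer x) = es s X x e mu B t := by
  funext r; cases r <;> rfl
theorem es_e (x : ℕ) : update (es s X lam e mu B t) .rE (zer x) = es s X lam x mu B t := by
  funext r; cases r <;> rfl
theorem es_mu (x : ℕ) : update (es s X lam e mu B t) .rMu (zer x) = es s X lam e x B t := by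
  funext r; cases r <;> rfl
theorem es_B (x : ℕ) : update (es s X lam e mu B t) .rB (zer x) = es s X lam e mu x t := by
  funext r; cases r <;> rfl
theorem es_t (x : ℕ) : update (es s X lam e mu B t) .t1 (zer x) = es s X lam e mu B x := by
  funext r; cases r <;> rfl
theorem es_X (x : List Bool) : update (es s X lam e mu B t) .X x = es s x lam e mu B t := by
  funext r; cases r <;> rfl

theorem preE_runs (h0 : s .t0 = []) :
    Runs preE (es s X (2 * mu + 1) 0 0 B 0) (es s X 0 (2 * mu + 1) mu 0 0)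
      (2 * B + 30 * (mu + 1)) := by
  have s1 : Runs (.clear .rB) (es s X (2 * mu + 1) 0 0 B 0) (es s X (2 * mu + 1) 0 0 0 0)
      (2 * B + 1) := by
    refine (Runs.clear Reg.rB _).conv (es_B 0) ?_
    show 2 * (zer B).length + 1 ≤ _
    rw [zer_length]
  have s2 : Runs (.copy .rLam .t0 .t1) (es s X (2 * mu + 1) 0 0 0 0)
      (es s X (2 * mu + 1) 0 0 0 (2 * mu + 1)) (5 * (2 * mu + 1) + 2) := by
    have h := Runs.copy (r := Reg.rLam) (q := .t0) (dst := .t1) (by decide) (by decide)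
      (by decide) (s := es s X (2 * mu + 1) 0 0 0 0) h0
    refine h.conv ?_ ?_
    · have e1 : es s X (2 * mu + 1) 0 0 0 0 Reg.rLam ++ es s X (2 * mu + 1) 0 0 0 0 Reg.t1 =
          zer (2 * mu + 1) := by
        show zer (2 * mu + 1) ++ zer 0 = _
        rw [zer_zero, List.append_nil]
      rw [e1, es_t]
    · show 4 * (zer (2 * mu + 1)).length + 2 ≤ _
      rw [zer_length]; omega
  have s3 : Runs (.halfTo .t1 .rMu) (es s X (2 * mu + 1) 0 0 0 (2 * mu + 1))
      (es s X (2 * mu + 1) 0 (mu + 1) 0 0) (4 * (mu + 1) + 1) := by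
    have h := Runs.halfTo (src := Reg.t1) (dst := .rMu) (by decide)
      (s := es s X (2 * mu + 1) 0 0 0 (2 * mu + 1)) (x := mu) (z := 0) rfl rfl
    rw [Nat.add_zero] at h
    refine h.conv ?_ le_rfl
    rw [← zer_zero, es_t, es_mu]
  have s4 : Runs (.pop .rMu) (es s X (2 * mu + 1) 0 (mu + 1) 0 0)
      (es s X (2 * mu + 1) 0 mu 0 0) 1 := by
    refine (Runs.pop Reg.rMu _).conv ?_ le_rfl
    exact es_mu mu
  have s5 : Runs (.flip .rLam .rE) (es s X (2 * mu + 1) 0 mu 0 0)
      (es s X 0 (2 * mu + 1) mu 0 0) (2 * (2 * mu + 1) + 1) := by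
    refine (Runs.flip (r := Reg.rLam) (q := Reg.rE) (by decide) _).conv ?_ ?_
    · have e1 : (es s X (2 * mu + 1) 0 mu 0 0 Reg.rLam).reverse ++
          es s X (2 * mu + 1) 0 mu 0 0 Reg.rE = zer (2 * mu + 1) := by
        show (zer (2 * mu + 1)).reverse ++ zer 0 = _
        rw [zer_reverse, zer_zero, List.append_nil]
      rw [e1, ← zer_zero, es_lam, es_e]
    · show 2 * (zer (2 * mu + 1)).length + 1 ≤ _
      rw [zer_length]
  exact (s1.seq (s2.seq (s3.seq (s4.seq s5)))).weaken (by omega)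

theorem postE_runs (h0 : s .t0 = []) :
    Runs postE (es s X 0 (2 * mu + 1) mu 0 0) (es s X (2 * mu + 1) 0 0 (2 ^ mu) 0)
      (20 * (mu + 1) * 2 ^ mu + 10 * (mu + 1)) := by
  have s1 : Runs powB (es s X 0 (2 * mu + 1) mu 0 0) (es s X 0 (2 * mu + 1) mu (2 ^ mu) 0)
      (20 * (mu + 1) * 2 ^ mu) := by
    refine (powB_runs (s := es s X 0 (2 * mu + 1) mu 0 0) rfl rfl rfl h0 rfl).conv ?_ le_rfl
    exact es_B _
  have s2 : Runs (.clear .rMu) (es s X 0 (2 * mu + 1) mu (2 ^ mu) 0)
      (es s X 0 (2 * mu + 1) 0 (2 ^ mu) 0) (2 * mu + 1) := by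
    refine (Runs.clear Reg.rMu _).conv (es_mu 0) ?_
    show 2 * (zer mu).length + 1 ≤ _
    rw [zer_length]
  have s3 : Runs (.flip .rE .rLam) (es s X 0 (2 * mu + 1) 0 (2 ^ mu) 0)
      (es s X (2 * mu + 1) 0 0 (2 ^ mu) 0) (2 * (2 * mu + 1) + 1) := by
    refine (Runs.flip (r := Reg.rE) (q := Reg.rLam) (by decide) _).conv ?_ ?_
    · have e1 : (es s X 0 (2 * mu + 1) 0 (2 ^ mu) 0 Reg.rE).reverse ++
          es s X 0 (2 * mu + 1) 0 (2 ^ mu) 0 Reg.rLam = zer (2 * mu + 1) := by
        show (zer (2 * mu + 1)).reverse ++ zer 0 = _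
        rw [zer_reverse, zer_zero, List.append_nil]
      rw [e1, ← zer_zero, es_e, es_lam]
    · show 2 * (zer (2 * mu + 1)).length + 1 ≤ _
      rw [zer_length]
  exact (s1.seq (s2.seq s3)).weaken (by omega)

end

/-- Constant of `fastE`. -/
def KE : ℕ := 12 * 1300 + 3000 + 100

/-- The fast operation satisfies the specification of the level loop. -/
theorem fastE_spec {A : Machine} (hA : Multiplies A) {L m : ℕ}
    (hm : 26 * (2 ^ L * 2 ^ L) ≤ m) :
    H932.FastSpec (fastE A) L m (fun a => KE * min (mulTime A m + m) (m * a)) := by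
  intro s mu hcl hn hB hLam hmu hM hX
  have h2L : 1 ≤ 2 ^ L * 2 ^ L := Nat.one_le_iff_ne_zero.2 (by positivity)
  have hes : s = es s (s .X) (2 * mu + 1) 0 0 (2 ^ mu) 0 := by
    funext r
    cases r <;> first | rfl | exact hLam | exact hB | exact hcl _ rfl
  have h0 : s .t0 = [] := hcl _ rfl
  have r1 := (preE_runs (s := s) (X := s .X) (mu := mu) (B := 2 ^ mu) h0).lift
    (Y := Sim.AReg A) (Z := Sim.ASym A) (fun _ => [])
  have hpre : FastPre (es s (s .X) 0 (2 * mu + 1) mu 0 0) L mu m := by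
    refine ⟨?_, hn, hM, rfl, rfl, rfl, rfl, hX⟩
    intro r hr h1 h2
    have := hcl r hr
    cases r <;> first | exact this | exact absurd rfl h1 | exact absurd rfl h2 | rfl |
      exact absurd hr (by decide)
  have r2 := fastOp_runs partsE (A := A) hA hmu hm hpre
    (H811.fast_eq_shear rfl hmu (by linarith [Nat.mul_assoc 26 (2 ^ L) (2 ^ L)]) hX)
  rw [es_X] at r2
  have r3 := (postE_runs (s := s) (X := E.shear (2 ^ L) mu (2 * mu + 1) (s .X)) (mu := mu)
    h0).lift (Y := Sim.AReg A) (Z := Sim.ASym A) (fun _ => [])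
  have hend : update s .X (E.shear (2 ^ L) mu (2 * mu + 1) (s .X)) =
      es s (E.shear (2 ^ L) mu (2 * mu + 1) (s .X)) (2 * mu + 1) 0 0 (2 ^ mu) 0 := by
    conv_lhs => rw [hes]
    rw [es_X]
    rfl
  have c1 : m ≤ min (mulTime A m + m) (m * (2 * mu + 1)) :=
    le_min (Nat.le_add_left _ _) (Nat.le_mul_of_pos_right _ (by omega))
  have c2 : (mu + 1) * 2 ^ mu ≤ m := by
    have h1 : mu < 2 ^ mu := Nat.lt_two_pow_self
    have h2 : (mu + 1) * 2 ^ mu ≤ 2 ^ mu * 2 ^ mu := Nat.mul_le_mul_right _ h1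
    have h3 : 2 ^ mu ≤ 2 ^ L := Nat.pow_le_pow_right (by norm_num) (by omega)
    have h4 : 2 ^ mu * 2 ^ mu ≤ 2 ^ L * 2 ^ L := Nat.mul_le_mul h3 h3
    omega
  have c3 : 2 ^ mu ≤ (mu + 1) * 2 ^ mu := Nat.le_mul_of_pos_left _ (by omega)
  have c4 : mu + 1 ≤ (mu + 1) * 2 ^ mu := Nat.le_mul_of_pos_right _ (by positivity)
  have key := r1.seq (r2.seq r3)
  rw [hend]
  have key' := key.weaken (c' := KE * min (mulTime A m + m) (m * (2 * mu + 1))) (by
    have e1 : partsE.c = 1300 := rfl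
    rw [e1]
    have e2 : 20 * (mu + 1) * 2 ^ mu = 20 * ((mu + 1) * 2 ^ mu) := by ring
    rw [e2, KE]
    omega)
  rw [← hes] at key'
  exact key'

end Vale.Agent.P338
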