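import Vale.Agent.P338.H931.FastOp

/-!
# The fast operation: program and specification
-/

set_option linter.unusedSectionVars false
set_option linter.unusedSimpArgs false

namespace Vale.Agent.P338

open Function (update update_self update_of_ne)

/-- `rB := 2 ^ |rMu|`. -/
def powB : Prog Reg Bool := .seq (.push .rB false) (.forR .rMu .rLam (.dbl .rB .t0 .t1))

/-- First part: rulers, save the data, operands of the first product. -/
def fastA (P : Parts) : Prog Reg Bool :=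
  .seq prepF <| .seq (.copy .X .t0 .Xsave) <| .seq P.F1 <| .seq P.KER1 <| .seq P.FILLx P.FILLy

/-- Second part: operands of the second product. -/
def fastB (P : Parts) : Prog Reg Bool :=
  .seq P.F2 <| .seq P.KER2 <| .seq P.FILLx P.FILLy

/-- Third part: the result. -/
def fastC (P : Parts) : Prog Reg Bool := .seq P.F3 <| .seq P.FIX (.clear .Xsave)

/-- Cleaning up. -/
def fastD : Prog Reg Bool := .seq (.clear .fl) <| .seq cleanF (.clear .rB)

/-- The fast operation: columns `s` move down by the digit `[mu, 2mu+1)` of `s`. -/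
def fastOp (P : Parts) (A : Machine) : Prog (Reg ⊕ Sim.AReg A) (Bool ⊕ Sim.ASym A) :=
  .seq ((Prog.seq powB (fastA P)).lift _ _) <|
  .seq (Sim.callM A) <|
  .seq (ifNE .fl ((fall P).lift _ _) <|
    .seq ((fastB P).lift _ _) <| .seq (Sim.callM A) <|
      ifNE .fl ((fall P).lift _ _) ((fastC P).lift _ _)) <|
  (fastD.lift _ _)

section

variable {s : Store Reg Bool}

theorem powB_runs {mu : ℕ} (hMu : s .rMu = zer mu) (hB : s .rB = []) (hL : s .rLam = [])
    (h0 : s .t0 = []) (h1 : s .t1 = []) :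
    Runs powB s (update s .rB (zer (2 ^ mu))) (20 * (mu + 1) * 2 ^ mu) := by
  have s1 := Runs.push Reg.rB false s
  have s2 := Runs.forR (p := (.dbl .rB .t0 .t1 : Prog Reg Bool)) (r := Reg.rMu) (q := Reg.rLam)
    (by decide) (a := false) (n := mu) (fun i => update s .rB (zer (2 ^ i))) (6 * 2 ^ mu + 3)
    hMu hL
    (by
      intro i hi
      refine (Runs.dbl (s := update (update (update s .rB (zer (2 ^ i))) .rMu
        (List.replicate (mu - 1 - i) false)) .rLam (List.replicate (i + 1) false))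
        (r := Reg.rB) (t := Reg.t0) (u := Reg.t1) (by decide) (by decide) (by decide)
        (x := 2 ^ i) rfl h0 h1).conv ?_ ?_
      · funext r
        cases r <;> simp [pow_succ, Nat.mul_comm]
      · have : 2 ^ i ≤ 2 ^ mu := Nat.pow_le_pow_right (by norm_num) hi.le
        omega)
  have e1 : update s .rB (false :: s .rB) = update s .rB (zer (2 ^ 0)) := by
    rw [hB]; rfl
  rw [e1] at s1
  refine (s1.seq s2).conv ?_ ?_
  · funext r
    cases r <;> simp [hMu, hL, zer]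
  · have : 1 ≤ 2 ^ mu := Nat.one_le_two_pow
    nlinarith

theorem tmp_fs (hs : TmpClean s) (n b : ℕ) (f : FV) : TmpClean (fs s (.std n b) f) := by
  intro r hr
  have := hs r hr
  cases r <;> first | exact this | exact absurd hr (by decide) | rfl

theorem rul_fs {n b : ℕ} (hn : s .rn = zer n) (hb : s .rB = zer b) (f : FV) :
    Rul (fs s (.std n b) f) n b :=
  ⟨hn, hb, rfl, rfl, rfl, rfl, rfl, rfl, rfl, rfl, rfl⟩

variable (P : Parts) {L mu m Gr : ℕ}

/-- Arithmetic of the parameters. -/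
theorem params (hmu : 2 * mu + 1 ≤ L) :
    2 ^ L = 2 * 2 ^ mu * 2 ^ mu * 2 ^ (L - (2 * mu + 1)) := by
  have : 2 * 2 ^ mu * 2 ^ mu * 2 ^ (L - (2 * mu + 1)) = 2 ^ (2 * mu + 1 + (L - (2 * mu + 1))) := by
    rw [pow_add, pow_add, pow_one, pow_mul', sq]; ring
  rw [this]; congr 1; omega

theorem kernel_le {n b m : ℕ} {e : ℕ → ℕ} (hb : 0 < b) (hL : 1 ≤ n) (hbb : 2 * b * b ≤ n)
    (hm : 26 * (n * n) ≤ m) (he : ∀ k, e k < 2 * b) :
    (E.kernel n b e).length ≤ m := by
  rw [E.kernel_length fun k hk => lt_of_lt_of_le (he k) ?_]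
  · have : 4 * b * E.rowW n b = 26 * (n * (2 * b * b)) := by unfold E.rowW; ring
    rw [this]
    calc 26 * (n * (2 * b * b)) ≤ 26 * (n * n) :=
          Nat.mul_le_mul_left _ (Nat.mul_le_mul_left _ hbb)
      _ ≤ m := hm
  · unfold E.rowW
    nlinarith

theorem fastA_runs {D : List Bool} {e : ℕ} (hG : 2 ^ L = 2 * 2 ^ mu * 2 ^ mu * Gr) (hG0 : 0 < Gr)
    (hm : 26 * (2 ^ L * 2 ^ L) ≤ m) (hs : TmpClean s) (hn : s .rn = zer (2 ^ L))
    (hB : s .rB = zer (2 ^ mu)) (hM : s .rM = zer m) (hD : D.length = 2 ^ L * 2 ^ L) :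
    Runs (fastA P) (fs s .zero ⟨e, D, [], [], [], [], []⟩)
      (fs s (.std (2 ^ L) (2 ^ mu)) ⟨e, [], D,
        fillTo m (E.f1 (2 ^ L) (2 ^ mu) Gr (E.wordsOf (2 ^ L) (2 ^ mu) D)),
        fillTo m (E.kernel (2 ^ L) (2 ^ mu) (E.eh (2 ^ mu))), [], []⟩)
      ((4 * P.c + 1010) * m) := by
  have hb : 0 < 2 ^ mu := by positivity
  have hL : 1 ≤ 2 ^ L := Nat.one_le_two_pow
  have hnn : 1 ≤ 2 ^ L * 2 ^ L := Nat.mul_pos hL hL
  have hm' : 2 ^ L * 2 ^ L ≤ m := by omega
  set n := 2 ^ L with hndef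
  set b := 2 ^ mu with hbdef
  have h0 : s .t0 = [] := hs _ rfl
  have h1 : s .t1 = [] := hs _ rfl
  have hD' : D.length = Gr * (2 * b) * n * b := by
    rw [hD]
    calc n * n = n * (2 * b * b * Gr) := by rw [← hG]
      _ = _ := by ring
  have s1 : Runs prepF (fs s .zero ⟨e, D, [], [], [], [], []⟩)
      (fs s (.std n b) ⟨e, D, [], [], [], [], []⟩) (1000 * (n * n)) := by
    have h := prepF_runs (s := fs s .zero ⟨e, D, [], [], [], [], []⟩) (n := n) (b := b)
      (c := Gr) hb hG hG0 hn hB h0 h1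
    have e1 : ∀ v, setRV (fs s .zero ⟨e, D, [], [], [], [], []⟩) v =
        fs s v ⟨e, D, [], [], [], [], []⟩ := by
      intro v; funext r; cases r <;> rfl
    rwa [e1, e1] at h
  have s2 : Runs (.copy .X .t0 .Xsave) (fs s (.std n b) ⟨e, D, [], [], [], [], []⟩)
      (fs s (.std n b) ⟨e, D, D, [], [], [], []⟩) (4 * (n * n) + 2) := by
    refine (Runs.copy (s := fs s (.std n b) ⟨e, D, [], [], [], [], []⟩) (r := Reg.X)
      (q := Reg.t0) (dst := Reg.Xsave) (by decide) (by decide) (by decide) h0).conv ?_ (by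
        show 4 * D.length + 2 ≤ _
        rw [hD])
    rw [fs_Xs]
    congr 1
    show (⟨e, D, D ++ [], [], [], [], []⟩ : FV) = _
    rw [List.append_nil]
  have hw := fun g i w hg hi hw' => E.wordsOf_length (n := n) (b := b) (Gr := Gr) hD' (g := g)
    (i := i) (w := w) hg hi hw'
  set F1 := E.f1 n b Gr (E.wordsOf n b D) with hF1
  set H1 := E.kernel n b (E.eh b) with hH1
  have s3 : Runs P.F1 (fs s (.std n b) ⟨e, D, D, [], [], [], []⟩)
      (fs s (.std n b) ⟨e, [], D, F1, [], [], []⟩) (P.c * m) := by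
    have h := P.hF1 (fs s (.std n b) ⟨e, D, D, [], [], [], []⟩) mu n Gr m (E.wordsOf n b D) hG hG0 hm'
      (tmp_fs hs _ _ _) (rul_fs hn hB _) rfl hw (E.wordS_wordsOf hD').symm
    rw [fs_X, fs_cx] at h
    exact h
  have s4 : Runs P.KER1 (fs s (.std n b) ⟨e, [], D, F1, [], [], []⟩)
      (fs s (.std n b) ⟨e, [], D, F1, H1, [], []⟩) (P.c * m) := by
    have h := P.hKER1 (fs s (.std n b) ⟨e, [], D, F1, [], [], []⟩) mu n Gr m hG hG0 hm'
      (tmp_fs hs _ _ _) (rul_fs hn hB _) rfl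
    rw [fs_cy] at h
    exact h
  have l1 : F1.length ≤ m := by
    rw [hF1, E.f1_length hb hw]
    refine le_trans (le_of_eq ?_) hm
    show _ = 26 * (n * n)
    have : Gr * (2 * b * (n * (13 * b)) + 2 * b * E.rowW n b) = 26 * (n * (2 * b * b * Gr)) := by
      unfold E.rowW; ring
    rw [this, ← hG]
  have hbb : 2 * b * b ≤ n := by
    rw [hG]; exact Nat.le_mul_of_pos_right _ hG0
  have l2 : H1.length ≤ m := kernel_le hb hL hbb hm fun k => E.ex_le' b hb _
  have s5 : Runs P.FILLx (fs s (.std n b) ⟨e, [], D, F1, H1, [], []⟩)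
      (fs s (.std n b) ⟨e, [], D, fillTo m F1, H1, [], []⟩) (P.c * m) := by
    have h := P.hFILLx (fs s (.std n b) ⟨e, [], D, F1, H1, [], []⟩) m (by omega)
      (tmp_fs hs n b _) hM l1
    rw [fs_cx] at h
    exact h
  have s6 : Runs P.FILLy (fs s (.std n b) ⟨e, [], D, fillTo m F1, H1, [], []⟩)
      (fs s (.std n b) ⟨e, [], D, fillTo m F1, fillTo m H1, [], []⟩) (P.c * m) := by
    have h := P.hFILLy (fs s (.std n b) ⟨e, [], D, fillTo m F1, H1, [], []⟩) m (by omega)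
      (tmp_fs hs n b _) hM l2
    rw [fs_cy] at h
    exact h
  refine (s1.seq <| s2.seq <| s3.seq <| s4.seq <| s5.seq s6).conv rfl ?_
  nlinarith

/-- The slots of a product of length `2m`. -/
theorem slots_ok {m n b Gr : ℕ} (hG : n = 2 * b * b * Gr) (hm : 26 * (n * n) ≤ m)
    {PP : List Bool} (hP : PP.length = 2 * m) :
    PP = E.slotS n b Gr (E.slotsOf n b PP) ++ PP.drop (Gr * (4 * b) * n * (13 * b)) ∧
    ∀ g r w, g < Gr → r < 4 * b → w < n → (E.slotsOf n b PP g r w).length = 13 * b := by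
  have h1 : Gr * (4 * b) * n * (13 * b) = 26 * (n * n) := by
    conv_rhs => rw [hG]
    conv_lhs => rw [hG]
    ring
  refine ⟨?_, fun g r w hg hr hw => E.slotsOf_length (by omega) hg hr hw⟩
  rw [E.slotS_slotsOf, List.take_append_drop]

theorem mulL_length' (m : ℕ) (u v : List Bool) : (mulL m u v).length = 2 * m :=
  E.lbits_length' _ _

theorem fastB_runs {D PP : List Bool} {e : ℕ} (hG : 2 ^ L = 2 * 2 ^ mu * 2 ^ mu * Gr)
    (hG0 : 0 < Gr) (hm : 26 * (2 ^ L * 2 ^ L) ≤ m) (hs : TmpClean s) (hn : s .rn = zer (2 ^ L))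
    (hB : s .rB = zer (2 ^ mu)) (hM : s .rM = zer m) (hP : PP.length = 2 * m) :
    Runs (fastB P) (fs s (.std (2 ^ L) (2 ^ mu)) ⟨e, [], D, [], [], PP, []⟩)
      (fs s (.std (2 ^ L) (2 ^ mu)) ⟨e, [], D,
        fillTo m (E.f2 (2 ^ L) (2 ^ mu) Gr (E.slotsOf (2 ^ L) (2 ^ mu) PP)),
        fillTo m (E.kernel (2 ^ L) (2 ^ mu) (E.eh' (2 ^ mu))), [], []⟩)
      (4 * P.c * m) := by
  have hb : 0 < 2 ^ mu := by positivity
  have hL : 1 ≤ 2 ^ L := Nat.one_le_two_pow
  have hnn : 1 ≤ 2 ^ L * 2 ^ L := Nat.mul_pos hL hL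
  have hm' : 2 ^ L * 2 ^ L ≤ m := by omega
  set n := 2 ^ L with hndef
  set b := 2 ^ mu with hbdef
  obtain ⟨hP1, hP2⟩ := slots_ok hG hm hP
  set F2 := E.f2 n b Gr (E.slotsOf n b PP) with hF2
  set H2 := E.kernel n b (E.eh' b) with hH2
  have s3 : Runs P.F2 (fs s (.std n b) ⟨e, [], D, [], [], PP, []⟩)
      (fs s (.std n b) ⟨e, [], D, F2, [], [], []⟩) (P.c * m) := by
    have h := P.hF2 (fs s (.std n b) ⟨e, [], D, [], [], PP, []⟩) mu n Gr m (E.slotsOf n b PP)
      (PP.drop (Gr * (4 * b) * n * (13 * b))) hG hG0 hm'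
      (tmp_fs hs _ _ _) (rul_fs hn hB _) rfl hP2 hP1 hP.le
    rw [fs_cz, fs_cx] at h
    exact h
  have s4 : Runs P.KER2 (fs s (.std n b) ⟨e, [], D, F2, [], [], []⟩)
      (fs s (.std n b) ⟨e, [], D, F2, H2, [], []⟩) (P.c * m) := by
    have h := P.hKER2 (fs s (.std n b) ⟨e, [], D, F2, [], [], []⟩) mu n Gr m hG hG0 hm'
      (tmp_fs hs _ _ _) (rul_fs hn hB _) rfl
    rw [fs_cy] at h
    exact h
  have l1 : F2.length ≤ m := by
    rw [hF2, E.f2_length hb ⟨b * Gr, by rw [hG]; ring⟩ hP2]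
    refine le_trans (le_of_eq ?_) hm
    show _ = 26 * (n * n)
    have : Gr * (2 * b * (n * (13 * b)) + 2 * b * E.rowW n b) = 26 * (n * (2 * b * b * Gr)) := by
      unfold E.rowW; ring
    rw [this, ← hG]
  have hbb : 2 * b * b ≤ n := by
    rw [hG]; exact Nat.le_mul_of_pos_right _ hG0
  have l2 : H2.length ≤ m := kernel_le hb hL hbb hm fun k => E.ex_le' b hb _
  have s5 : Runs P.FILLx (fs s (.std n b) ⟨e, [], D, F2, H2, [], []⟩)
      (fs s (.std n b) ⟨e, [], D, fillTo m F2, H2, [], []⟩) (P.c * m) := by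
    have h := P.hFILLx (fs s (.std n b) ⟨e, [], D, F2, H2, [], []⟩) m (by omega)
      (tmp_fs hs n b _) hM l1
    rw [fs_cx] at h
    exact h
  have s6 : Runs P.FILLy (fs s (.std n b) ⟨e, [], D, fillTo m F2, H2, [], []⟩)
      (fs s (.std n b) ⟨e, [], D, fillTo m F2, fillTo m H2, [], []⟩) (P.c * m) := by
    have h := P.hFILLy (fs s (.std n b) ⟨e, [], D, fillTo m F2, H2, [], []⟩) m (by omega)
      (tmp_fs hs n b _) hM l2
    rw [fs_cy] at h
    exact h
  refine (s3.seq <| s4.seq <| s5.seq s6).conv rfl ?_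
  nlinarith

theorem fastC_runs {D PP : List Bool} {e : ℕ} (hG : 2 ^ L = 2 * 2 ^ mu * 2 ^ mu * Gr)
    (hG0 : 0 < Gr)
    (hm : 26 * (2 ^ L * 2 ^ L) ≤ m) (hs : TmpClean s) (hn : s .rn = zer (2 ^ L))
    (hB : s .rB = zer (2 ^ mu)) (hD : D.length = 2 ^ L * 2 ^ L) (hP : PP.length = 2 * m) :
    Runs (fastC P) (fs s (.std (2 ^ L) (2 ^ mu)) ⟨e, [], D, [], [], PP, []⟩)
      (fs s (.std (2 ^ L) (2 ^ mu)) ⟨e, E.fix (2 ^ L) (2 ^ mu) Gr
        (E.f3 (2 ^ L) (2 ^ mu) Gr (E.slotsOf (2 ^ L) (2 ^ mu) PP)), [], [], [], [], []⟩)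
      ((2 * P.c + 3) * m) := by
  have hL : 1 ≤ 2 ^ L := Nat.one_le_two_pow
  have hnn : 1 ≤ 2 ^ L * 2 ^ L := Nat.mul_pos hL hL
  have hm' : 2 ^ L * 2 ^ L ≤ m := by omega
  set n := 2 ^ L with hndef
  set b := 2 ^ mu with hbdef
  obtain ⟨hP1, hP2⟩ := slots_ok hG hm hP
  set F3 := E.f3 n b Gr (E.slotsOf n b PP) with hF3
  have s3 : Runs P.F3 (fs s (.std n b) ⟨e, [], D, [], [], PP, []⟩)
      (fs s (.std n b) ⟨e, F3, D, [], [], [], []⟩) (P.c * m) := by
    have h := P.hF3 (fs s (.std n b) ⟨e, [], D, [], [], PP, []⟩) mu n Gr m (E.slotsOf n b PP)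
      (PP.drop (Gr * (4 * b) * n * (13 * b))) hG hG0 hm'
      (tmp_fs hs _ _ _) (rul_fs hn hB _) rfl hP2 hP1 hP.le
    rw [fs_cz, fs_X] at h
    exact h
  have l1 : F3.length = n * n := by
    rw [hF3, E.f3_length]
    have : Gr * (2 * b * (n * b)) = n * (2 * b * b * Gr) := by ring
    rw [this, ← hG]
  have s4 : Runs P.FIX (fs s (.std n b) ⟨e, F3, D, [], [], [], []⟩)
      (fs s (.std n b) ⟨e, E.fix n b Gr F3, D, [], [], [], []⟩) (P.c * m) := by
    have h := P.hFIX (fs s (.std n b) ⟨e, F3, D, [], [], [], []⟩) mu n Gr m hG hG0 hm'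
      (tmp_fs hs _ _ _) (rul_fs hn hB _) l1
    rw [fs_X] at h
    exact h
  have s5 : Runs (.clear .Xsave) (fs s (.std n b) ⟨e, E.fix n b Gr F3, D, [], [], [], []⟩)
      (fs s (.std n b) ⟨e, E.fix n b Gr F3, [], [], [], [], []⟩) (2 * (n * n) + 1) := by
    refine (Runs.clear Reg.Xsave _).conv (fs_Xs _ _ _ _) ?_
    show 2 * D.length + 1 ≤ _
    rw [hD]
  refine (s3.seq <| s4.seq s5).conv rfl ?_
  nlinarith

theorem fastD_runs {X fl : List Bool} {e : ℕ} (hG : 2 ^ L = 2 * 2 ^ mu * 2 ^ mu * Gr)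
    (hG0 : 0 < Gr) (hm : 26 * (2 ^ L * 2 ^ L) ≤ m) (hB : s .rB = zer (2 ^ mu))
    (hfl : fl.length ≤ 1) :
    Runs fastD (fs s (.std (2 ^ L) (2 ^ mu)) ⟨e, X, [], [], [], [], fl⟩)
      (update (fs s .zero ⟨e, X, [], [], [], [], []⟩) .rB []) (210 * m) := by
  have hb : 0 < 2 ^ mu := by positivity
  have hL : 1 ≤ 2 ^ L := Nat.one_le_two_pow
  have hnn : 1 ≤ 2 ^ L * 2 ^ L := Nat.mul_pos hL hL
  have hm' : 2 ^ L * 2 ^ L ≤ m := by omega
  set n := 2 ^ L with hndef
  set b := 2 ^ mu with hbdef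
  have s1 : Runs (.clear .fl) (fs s (.std n b) ⟨e, X, [], [], [], [], fl⟩)
      (fs s (.std n b) ⟨e, X, [], [], [], [], []⟩) (2 * 1 + 1) := by
    refine (Runs.clear Reg.fl _).conv (fs_fl _ _ _ _) ?_
    show 2 * fl.length + 1 ≤ _
    omega
  have s2 : Runs cleanF (fs s (.std n b) ⟨e, X, [], [], [], [], []⟩)
      (fs s .zero ⟨e, X, [], [], [], [], []⟩) (200 * (n * n)) := by
    have h := cleanF_runs (s := fs s .zero ⟨e, X, [], [], [], [], []⟩) (n := n) (b := b)
      (c := Gr) hb hG hG0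
    have e1 : ∀ v, setRV (fs s .zero ⟨e, X, [], [], [], [], []⟩) v =
        fs s v ⟨e, X, [], [], [], [], []⟩ := by
      intro v; funext r; cases r <;> rfl
    rwa [e1, e1] at h
  have s3 := Runs.clear Reg.rB (fs s .zero ⟨e, X, [], [], [], [], []⟩)
  have e3 : (fs s .zero ⟨e, X, [], [], [], [], []⟩ Reg.rB).length = b := by
    show (s .rB).length = b
    rw [hB, zer_length]
  rw [e3] at s3
  refine (s1.seq <| s2.seq s3).conv rfl ?_
  have hbn : b ≤ n := by
    rw [hG]; nlinarith [Nat.mul_pos hb hG0, Nat.mul_pos (Nat.mul_pos hb hb) hG0]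
  nlinarith

/-- The fallback in the states of the fast operation. -/
theorem fall_fs {X D cz : List Bool} {e : ℕ} (hmu : 2 * mu + 1 ≤ L)
    (hm : 26 * (2 ^ L * 2 ^ L) ≤ m) (hs : TmpClean s) (hn : s .rn = zer (2 ^ L))
    (hB : s .rB = zer (2 ^ mu)) (hMu : s .rMu = zer mu) (hLam : s .rLam = [])
    (hrt : s .rt = []) (hr2t : s .r2t = []) (hr2tn : s .r2tn = [])
    (hD : D.length = 2 ^ L * 2 ^ L) (hX : X.length ≤ m) (hcz : cz.length ≤ 2 * m) :
    Runs (fall P) (fs s (.std (2 ^ L) (2 ^ mu)) ⟨e, X, D, [], [], cz, [false]⟩)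
      (fs s (.std (2 ^ L) (2 ^ mu))
        ⟨e, E.shear (2 ^ L) mu (2 * mu + 1) D, [], [], [], [], [false]⟩)
      ((P.c + 100) * m * (mu + 1)) := by
  have hL : 1 ≤ 2 ^ L := Nat.one_le_two_pow
  have hnn : 1 ≤ 2 ^ L * 2 ^ L := Nat.mul_pos hL hL
  have h := fall_runs P (s := fs s (.std (2 ^ L) (2 ^ mu)) ⟨e, X, D, [], [], cz, [false]⟩)
    (L := L) (mu := mu) (m := m) (D := D) hmu (by omega) (tmp_fs hs _ _ _) hn hB hMu hrt hLam
    hr2t hr2tn hD rfl hX hcz
  rw [fs_cz, fs_Xs, fs_X, bitIter_eq_shear hD (mu + 1) (by omega),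
    show mu + (mu + 1) = 2 * mu + 1 by ring] at h
  exact h

theorem f1_le {n b m Gr : ℕ} {x : ℕ → ℕ → ℕ → List Bool} (hb : 0 < b)
    (hG : n = 2 * b * b * Gr) (hm : 26 * (n * n) ≤ m)
    (hw : ∀ g i w, g < Gr → i < 2 * b → w < n → (x g i w).length = b) :
    (E.f1 n b Gr x).length ≤ m := by
  rw [E.f1_length hb hw]
  refine le_trans (le_of_eq ?_) hm
  have : Gr * (2 * b * (n * (13 * b)) + 2 * b * E.rowW n b) = 26 * (n * (2 * b * b * Gr)) := by
    unfold E.rowW; ring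
  rw [this, ← hG]

theorem f2_le {n b m Gr : ℕ} {y : ℕ → ℕ → ℕ → List Bool} (hb : 0 < b)
    (hG : n = 2 * b * b * Gr) (hm : 26 * (n * n) ≤ m)
    (hy : ∀ g r w, g < Gr → r < 4 * b → w < n → (y g r w).length = 13 * b) :
    (E.f2 n b Gr y).length ≤ m := by
  rw [E.f2_length hb ⟨b * Gr, by rw [hG]; ring⟩ hy]
  refine le_trans (le_of_eq ?_) hm
  have : Gr * (2 * b * (n * (13 * b)) + 2 * b * E.rowW n b) = 26 * (n * (2 * b * b * Gr)) := by
    unfold E.rowW; ring
  rw [this, ← hG]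

theorem fillTo_length' {m : ℕ} {l : List Bool} (h : l.length ≤ m) :
    (fillTo m l).length = m := by
  simp only [fillTo, List.length_append, zer_length]; omega

/-- The call in the states of the fast operation. -/
theorem call_fs {A : Machine} (hA : Multiplies A) {v : RV} {D cx cy : List Bool} {e : ℕ}
    (hm : 1 ≤ m) (hM : s .rM = zer m) (hM' : s .rM' = []) (hE' : s .rE' = [])
    (hx : cx.length = m) (hy : cy.length = m) :
    LR (Sim.callM A) (fs s v ⟨e, [], D, cx, cy, [], []⟩)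
        (fs s v ⟨e, [], D, [], [], mulL m cx cy, []⟩)
        (16 * min (mulTime A m) (m * e) + 40 * m) ∨
      (m * e < mulTime A m ∧ LR (Sim.callM A) (fs s v ⟨e, [], D, cx, cy, [], []⟩)
        (fs s v ⟨e, [], D, [], [], zer (2 * m), [false]⟩)
        (16 * min (mulTime A m) (m * e) + 40 * m)) := by
  have h := Sim.callM_spec' hA hm (fs s v ⟨e, [], D, cx, cy, [], []⟩) hx hy rfl
    (by show (s .rM).length = m; rw [hM, zer_length]) hM' hE' rfl
  have he : (fs s v ⟨e, [], D, cx, cy, [], []⟩ Reg.rE).length = e := zer_length e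
  rw [he, fs_cx, fs_cy, fs_cz, fs_cz, fs_fl] at h
  exact h

/-- The hypotheses on the store before the fast operation. -/
structure FastPre (s : Store Reg Bool) (L mu m : ℕ) : Prop where
  work : ∀ r, Reg.work r = true → r ≠ .rMu → r ≠ .rE → s r = []
  rn : s .rn = zer (2 ^ L)
  rM : s .rM = zer m
  rMu : s .rMu = zer mu
  rE : s .rE = zer (2 * mu + 1)
  rB : s .rB = []
  rLam : s .rLam = []
  X : (s .X).length = 2 ^ L * 2 ^ L

/-- **The fast operation.** -/
theorem fastOp_runs {A : Machine} (hA : Multiplies A) (hmu : 2 * mu + 1 ≤ L)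
    (hm : 26 * (2 ^ L * 2 ^ L) ≤ m) (h : FastPre s L mu m)
    (hfast : E.fast m (2 ^ L) (2 ^ mu) (s .X) = E.shear (2 ^ L) mu (2 * mu + 1) (s .X)) :
    LR (fastOp P A) s (update s .X (E.shear (2 ^ L) mu (2 * mu + 1) (s .X)))
      ((12 * P.c + 3000) * min (mulTime A m + m) (m * (2 * mu + 1))) := by
  have hb : 0 < 2 ^ mu := by positivity
  have hL : 1 ≤ 2 ^ L := Nat.one_le_two_pow
  have hnn : 1 ≤ 2 ^ L * 2 ^ L := Nat.mul_pos hL hL
  have hm1 : 1 ≤ m := by omega
  obtain ⟨Gr, hGr, hG, hG0⟩ : ∃ Gr, Gr = 2 ^ (L - (2 * mu + 1)) ∧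
      2 ^ L = 2 * 2 ^ mu * 2 ^ mu * Gr ∧ 0 < Gr := ⟨_, rfl, params hmu, by positivity⟩
  have hGd : 2 ^ L / (2 * 2 ^ mu * 2 ^ mu) = Gr := by
    rw [hG, Nat.mul_div_cancel_left _ (by positivity)]
  let D := s .X
  have hD : D.length = 2 ^ L * 2 ^ L := h.X
  let e := 2 * mu + 1
  let s' : Store Reg Bool := update s .rB (zer (2 ^ mu))
  have hs' : TmpClean s' := by
    intro r hr
    have := fun h1 h2 h3 => h.work r h1 h2 h3
    cases r <;> first | exact this rfl (by decide) (by decide) | exact absurd hr (by decide)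
  have ht (r : Reg) (h1 : Reg.work r = true) (h2 : r ≠ .rMu) (h3 : r ≠ .rE) : s r = [] :=
    h.work r h1 h2 h3
  have e0 : s' = fs s' .zero ⟨e, D, [], [], [], [], []⟩ := by
    funext r
    cases r <;> first
      | rfl
      | exact ht _ rfl (by decide) (by decide)
      | exact h.rE
  -- part 0
  have r0 : Runs powB s (fs s' .zero ⟨e, D, [], [], [], [], []⟩) (20 * (mu + 1) * 2 ^ mu) := by
    have := powB_runs h.rMu h.rB h.rLam (ht .t0 rfl (by decide) (by decide))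
      (ht .t1 rfl (by decide) (by decide))
    rw [← e0]; exact this
  have hn' : s' .rn = zer (2 ^ L) := h.rn
  have hB' : s' .rB = zer (2 ^ mu) := rfl
  have hM' : s' .rM = zer m := h.rM
  have r1 := fastA_runs P (e := e) hG hG0 hm hs' hn' hB' hM' hD
  set cx1 := fillTo m (E.f1 (2 ^ L) (2 ^ mu) Gr (E.wordsOf (2 ^ L) (2 ^ mu) D)) with hcx1
  set cy1 := fillTo m (E.kernel (2 ^ L) (2 ^ mu) (E.eh (2 ^ mu))) with hcy1
  have hA1 : LR ((Prog.seq powB (fastA P)).lift (Sim.AReg A) (Sim.ASym A)) s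
      (fs s' (.std (2 ^ L) (2 ^ mu)) ⟨e, [], D, cx1, cy1, [], []⟩)
      (20 * (mu + 1) * 2 ^ mu + (4 * P.c + 1010) * m) := LR.base (r0.seq r1)
  have hb' : 2 * 2 ^ mu * 2 ^ mu ≤ 2 ^ L := by
    rw [hG]; exact Nat.le_mul_of_pos_right _ hG0
  have hD' : D.length = Gr * (2 * 2 ^ mu) * 2 ^ L * 2 ^ mu := by
    rw [hD]
    calc 2 ^ L * 2 ^ L = 2 ^ L * (2 * 2 ^ mu * 2 ^ mu * Gr) := by rw [← hG]
      _ = _ := by ring
  have lx1 : cx1.length = m := fillTo_length' (f1_le hb hG hm fun g i w hg hi hw' =>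
    E.wordsOf_length hD' hg hi hw')
  have ly1 : cy1.length = m :=
    fillTo_length' (kernel_le hb hL hb' hm fun k => E.ex_le' _ hb _)
  have hM'' : s' .rM' = [] := ht .rM' rfl (by decide) (by decide)
  have hE'' : s' .rE' = [] := ht .rE' rfl (by decide) (by decide)
  have hMu' : s' .rMu = zer mu := h.rMu
  have hLam' : s' .rLam = [] := h.rLam
  have hrt : s' .rt = [] := ht .rt rfl (by decide) (by decide)
  have hr2t : s' .r2t = [] := ht .r2t rfl (by decide) (by decide)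
  have hr2tn : s' .r2tn = [] := ht .r2tn rfl (by decide) (by decide)
  -- the end
  have hend : ∀ X, update (fs s' .zero ⟨e, X, [], [], [], [], []⟩) .rB [] = update s .X X := by
    intro X
    funext r
    cases r <;> first
      | rfl
      | exact (ht _ rfl (by decide) (by decide)).symm
      | exact h.rE.symm
      | exact h.rB.symm
  -- costs
  set M := min (mulTime A m + m) (m * (2 * mu + 1)) with hMdef
  have c1 : m ≤ M := by
    rw [hMdef]; refine le_min (by omega) (Nat.le_mul_of_pos_right _ (by omega))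
  have c2 : min (mulTime A m) (m * e) ≤ M := by
    rw [hMdef]; exact min_le_min (by omega) le_rfl
  have c3 : (mu + 1) * 2 ^ mu ≤ m := by
    have h1 : mu < 2 ^ mu := Nat.lt_two_pow_self
    have h2 : (mu + 1) * 2 ^ mu ≤ 2 ^ mu * 2 ^ mu := Nat.mul_le_mul_right _ h1
    have h3 : 2 ^ L ≤ 2 ^ L * 2 ^ L := Nat.le_mul_self _
    nlinarith
  have hfall : m * e < mulTime A m → ∀ X cz : List Bool, X.length ≤ m → cz.length ≤ 2 * m →
      LR (Y := Sim.AReg A) (Z := Sim.ASym A) ((fall P).lift _ _)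
        (fs s' (.std (2 ^ L) (2 ^ mu)) ⟨e, X, D, [], [], cz, [false]⟩)
        (fs s' (.std (2 ^ L) (2 ^ mu))
          ⟨e, E.shear (2 ^ L) mu (2 * mu + 1) D, [], [], [], [], [false]⟩)
        ((P.c + 100) * M) := by
    intro hT X cz hX hcz
    have h1 := fall_fs P (s := s') (L := L) (mu := mu) (m := m) (e := e) hmu hm hs' hn' hB' hMu'
      hLam' hrt hr2t hr2tn hD hX hcz
    refine (LR.base h1).conv rfl ?_
    have : m * (mu + 1) ≤ M := by
      have hT' : m * (2 * mu + 1) < mulTime A m := hT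
      rw [hMdef, min_eq_right (by omega)]
      exact Nat.mul_le_mul_left _ (by omega)
    calc (P.c + 100) * m * (mu + 1) = (P.c + 100) * (m * (mu + 1)) := by ring
      _ ≤ _ := Nat.mul_le_mul_left _ this
  have hD1 : ∀ X fl : List Bool, fl.length ≤ 1 →
      LR (Y := Sim.AReg A) (Z := Sim.ASym A) (fastD.lift _ _)
        (fs s' (.std (2 ^ L) (2 ^ mu)) ⟨e, X, [], [], [], [], fl⟩) (update s .X X)
        (210 * M) := by
    intro X fl hfl
    have h1 := fastD_runs (s := s') (X := X) (e := e) hG hG0 hm hB' hfl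
    rw [hend] at h1
    exact (LR.base h1).conv rfl (Nat.mul_le_mul_left _ c1)
  rcases call_fs (s := s') hA (v := .std (2 ^ L) (2 ^ mu)) (D := D) (e := e) hm1 hM' hM'' hE''
    lx1 ly1 with hc1 | ⟨hT, hc1⟩
  · -- first call succeeds
    set P1 := mulL m cx1 cy1 with hP1
    have lP1 : P1.length = 2 * m := mulL_length' _ _ _
    obtain ⟨-, lsl⟩ := slots_ok hG hm lP1
    have r2 := fastB_runs P (D := D) (PP := P1) (e := e) hG hG0 hm hs' hn' hB' hM' lP1
    set cx2 := fillTo m (E.f2 (2 ^ L) (2 ^ mu) Gr (E.slotsOf (2 ^ L) (2 ^ mu) P1)) with hcx2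
    set cy2 := fillTo m (E.kernel (2 ^ L) (2 ^ mu) (E.eh' (2 ^ mu))) with hcy2
    have lx2 : cx2.length = m := fillTo_length' (f2_le hb hG hm lsl)
    have ly2 : cy2.length = m :=
      fillTo_length' (kernel_le hb hL hb' hm fun k => E.ex_le' _ hb _)
    have hB1 := LR.base (Y := Sim.AReg A) (Z := Sim.ASym A) r2
    rcases call_fs (s := s') hA (v := .std (2 ^ L) (2 ^ mu)) (D := D) (e := e) hm1 hM' hM'' hE''
      lx2 ly2 with hc2 | ⟨hT, hc2⟩
    · -- second call succeeds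
      set P2 := mulL m cx2 cy2 with hP2
      have lP2 : P2.length = 2 * m := mulL_length' _ _ _
      have r3 := fastC_runs P (D := D) (PP := P2) (e := e) hG hG0 hm hs' hn' hB' hD lP2
      have hres : E.fix (2 ^ L) (2 ^ mu) Gr
          (E.f3 (2 ^ L) (2 ^ mu) Gr (E.slotsOf (2 ^ L) (2 ^ mu) P2)) =
          E.shear (2 ^ L) mu (2 * mu + 1) D := by
        rw [← hfast, hP2, hcx2, hcy2, hP1, hcx1, hcy1]
        simp only [E.fast, hGd]
        rfl
      rw [hres] at r3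
      have hC1 := LR.base (Y := Sim.AReg A) (Z := Sim.ASym A) r3
      have key := LR.seq hA1 <| LR.seq hc1 <| LR.seq (LR.ifNE_false (r := .fl)
        (p := (fall P).lift _ _) rfl (LR.seq hB1 <| LR.seq hc2 <| LR.ifNE_false (r := .fl)
          (p := (fall P).lift _ _) rfl hC1)) (hD1 _ [] (by simp))
      refine key.conv rfl ?_
      nlinarith
    · have hF := hfall hT [] (zer (2 * m)) (by simp) (by rw [zer_length])
      have key := LR.seq hA1 <| LR.seq hc1 <| LR.seq (LR.ifNE_false (r := .fl)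
        (p := (fall P).lift _ _) rfl (LR.seq hB1 <| LR.seq hc2 <| LR.ifNE_true (r := .fl)
          (q := (fastC P).lift _ _) (by simp [fs]) hF)) (hD1 _ [false] (by simp))
      refine key.conv rfl ?_
      nlinarith
  · have hF := hfall hT [] (zer (2 * m)) (by simp) (by rw [zer_length])
    have key := LR.seq hA1 <| LR.seq hc1 <| LR.seq (LR.ifNE_true (r := .fl)
      (q := .seq ((fastB P).lift _ _) <| .seq (Sim.callM A) <|
        ifNE .fl ((fall P).lift _ _) ((fastC P).lift _ _)) (by simp [fs]) hF)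
      (hD1 _ [false] (by simp))
    refine key.conv rfl ?_
    nlinarith

end

end Vale.Agent.P338
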