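import Vale.Agent.P338.H931.FastLev
import Vale.Agent.P338.H933.MainLevels

/-!
# The transfer theorem for proposal E
-/

namespace Vale.Agent.P338

/-- The fast operation, for `MainLevels`. -/
theorem fastOK (A : Machine) (hA : Multiplies A) : FastOK A :=
  ⟨fastE A, KE, fun _ _ hm => fastE_spec hA hm⟩

/-- **Integer multiplication is at least as hard as matrix transposition** (up to
`N log N / 2 ^ u`). -/
theorem transfer : Transfer 128 := transfer_of_fast fastOK

end Vale.Agent.P338
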