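import Vale.Agent.P338.H931.Parts
import Vale.Agent.P338.H931.CatLemmas
import Vale.Agent.P338.H932.Bridge

/-!
# The fast operation with time budget and fallback
-/

set_option linter.unusedSectionVars false
set_option linter.unusedSimpArgs false

namespace Vale.Agent.P338

open Function (update update_self update_of_ne)

/-! ### Runs of programs with a call, on base stores -/

/-- Runs of a program of the large machine between lifted base stores. -/
def LR {Y Z : Type} (p : Prog (Reg ⊕ Y) (Bool ⊕ Z)) (s s' : Store Reg Bool) (c : ℕ) : Prop :=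
  Runs p (liftStore s (fun _ => [])) (liftStore s' (fun _ => [])) c

namespace LR

variable {Y Z : Type} {p q : Prog (Reg ⊕ Y) (Bool ⊕ Z)} {s s₁ s₂ s' : Store Reg Bool}
  {c c₁ c₂ c' : ℕ}

theorem base {p : Prog Reg Bool} (h : Runs p s s' c) : LR (p.lift Y Z) s s' c :=
  Runs.lift h _

theorem seq (h₁ : LR p s s₁ c₁) (h₂ : LR q s₁ s₂ c₂) : LR (.seq p q) s s₂ (c₁ + c₂) :=
  Runs.seq h₁ h₂

theorem conv (h : LR p s s₁ c) (hs : s₁ = s') (hc : c ≤ c') : LR p s s' c' := by
  subst hs; exact h.weaken hc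

end LR

/-- If register `r` is nonempty then `p` else `q`. -/
def ifNE {Y Z : Type} (r : Reg) (p q : Prog (Reg ⊕ Y) (Bool ⊕ Z)) : Prog (Reg ⊕ Y) (Bool ⊕ Z) :=
  .branch fun t => if (t (Sum.inl r)).isSome then p else q

theorem LR.ifNE_true {Y Z : Type} {r : Reg} {p q : Prog (Reg ⊕ Y) (Bool ⊕ Z)}
    {s s' : Store Reg Bool} {c : ℕ} (hr : s r ≠ []) (h : LR p s s' c) :
    LR (ifNE r p q) s s' (c + 1) := by
  refine Runs.branch ?_
  have : (Store.tops (liftStore s (fun _ : Y => ([] : List (Bool ⊕ Z)))) (Sum.inl r)).isSome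
      = true := by
    obtain ⟨a, l, hl⟩ := List.exists_cons_of_ne_nil hr
    simp [Store.tops, liftStore, hl]
  rw [if_pos this]
  exact h

theorem LR.ifNE_false {Y Z : Type} {r : Reg} {p q : Prog (Reg ⊕ Y) (Bool ⊕ Z)}
    {s s' : Store Reg Bool} {c : ℕ} (hr : s r = []) (h : LR q s s' c) :
    LR (ifNE r p q) s s' (c + 1) := by
  refine Runs.branch ?_
  have : ¬ (Store.tops (liftStore s (fun _ : Y => ([] : List (Bool ⊕ Z)))) (Sum.inl r)).isSome
      = true := by
    simp [Store.tops, liftStore, hr]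
  rw [if_neg this]
  exact h

/-! ### The fallback -/

/-- One bit operation of the fallback; `r2t = 2^t` before, `2^(t+1)` after. -/
def fallBody (P : Parts) : Prog Reg Bool :=
  .seq (.mulTo .r2t .rn .r2tn .t0 .t1) <| .seq P.BITOP <| .seq (.clear .r2tn)
    (.dbl .r2t .t0 .t1)

/-- The fallback: all bit operations `t ∈ [mu, 2mu+1)` on the saved data. -/
def fall (P : Parts) : Prog Reg Bool :=
  .seq (.clear .cz) <| .seq (.clear .X) <| .seq (.flip .Xsave .t0) <| .seq (.flip .t0 .X) <|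
  .seq (.addTo .rB .r2t .t0) <| .seq (.addTo .rMu .rt .t0) <| .seq (.push .rt false) <|
  .seq (.forR .rt .rLam (fallBody P)) <| .seq (.clear .rt) (.clear .r2t)

/-- iterated bit operations `t = mu, mu+1, ..., mu+i-1` -/
def bitIter (n mu : ℕ) (X : List Bool) : ℕ → List Bool
  | 0 => X
  | i + 1 => E.bitop n (mu + i) (bitIter n mu X i)

theorem bitop_length {L t : ℕ} (ht : t < L) {X : List Bool}
    (hX : X.length = 2 ^ L * 2 ^ L) : (E.bitop (2 ^ L) t X).length = 2 ^ L * 2 ^ L := by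
  have hL : 2 ^ L = 2 ^ (L - (t + 1)) * 2 ^ (t + 1) := by
    rw [← pow_add]; congr 1; omega
  have hdiv : 2 ^ L / 2 ^ (t + 1) = 2 ^ (L - (t + 1)) := by
    conv_lhs => rw [hL]
    exact Nat.mul_div_cancel _ (by positivity)
  have hrot : (E.rotR (2 ^ t * 2 ^ L) X).length = 2 ^ L * 2 ^ L := by
    simp only [E.rotR, List.length_append, List.length_drop, List.length_take, hX]
    omega
  unfold E.bitop
  refine cat_length' fun i hi => ?_
  rw [hdiv, cat_length' (p := 2 ^ (t + 1)) fun p hp => ?_, ← hL]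
  have h1 : (i + 1) * 2 ^ L ≤ 2 ^ L * 2 ^ L := Nat.mul_le_mul_right _ hi
  have h2 : (p + 1) * 2 ^ (t + 1) ≤ 2 ^ L := by
    calc (p + 1) * 2 ^ (t + 1) ≤ 2 ^ (L - (t + 1)) * 2 ^ (t + 1) := Nat.mul_le_mul_right _ hp
      _ = 2 ^ L := hL.symm
  have h3 : 2 ^ (t + 1) = 2 ^ t + 2 ^ t := by rw [pow_succ]; ring
  rw [Nat.add_mul, Nat.one_mul] at h1 h2
  simp only [E.alt1, List.length_append, List.length_take, List.length_drop, hX, hrot]
  omega

theorem bitIter_length {L mu : ℕ} {X : List Bool} (hX : X.length = 2 ^ L * 2 ^ L) (i : ℕ)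
    (hi : mu + i ≤ L) : (bitIter (2 ^ L) mu X i).length = 2 ^ L * 2 ^ L := by
  induction i with
  | zero => exact hX
  | succ i ih => exact bitop_length (by omega) (ih (by omega))

open H932 in
/-- Composition of shears (low digits first). -/
theorem shear_shear_low {n lo mid hi : ℕ} {X : List Bool} (h1 : lo ≤ mid) (h2 : mid ≤ hi)
    (hn : 2 ^ hi ≤ n) (hX : X.length = n * n) :
    E.shear n mid hi (E.shear n lo mid X) = E.shear n lo hi X := by
  have h3 : 2 ^ mid ≤ n := le_trans (Nat.pow_le_pow_right (by norm_num) h2) hn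
  rw [← matL_getM hX, shear_matL h1 h3, shear_matL h2 hn, shear_matL (h1.trans h2) hn]
  refine matL_congr fun i s hi' hs => ?_
  have h4 := mod_two_pow_le_mod h1 s
  have h5 := mod_two_pow_le_mod h2 s
  have h6 : s % 2 ^ hi ≤ s := Nat.mod_le _ _
  rw [colShift_colShift _ _ _ (by simp only [dig]; omega)]
  simp only [colShift, dig]
  rw [show s % 2 ^ hi - s % 2 ^ mid + (s % 2 ^ mid - s % 2 ^ lo) = s % 2 ^ hi - s % 2 ^ lo by
    omega]

theorem bitIter_eq_shear {L mu : ℕ} {X : List Bool} (hX : X.length = 2 ^ L * 2 ^ L) (i : ℕ)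
    (hi : mu + i ≤ L) : bitIter (2 ^ L) mu X i = E.shear (2 ^ L) mu (mu + i) X := by
  induction i with
  | zero => exact (shear_refl (Nat.pow_le_pow_right (by norm_num) hi) hX).symm
  | succ i ih =>
    rw [bitIter, bitop_eq_shear rfl (by omega) (bitIter_length hX i (by omega)),
      ih (by omega), shear_shear_low (by omega) (by omega)
        (Nat.pow_le_pow_right (by norm_num) (by omega)) hX]
    rfl

theorem zer_ne_nil {n : ℕ} (h : 0 < n) : zer n ≠ [] := by
  obtain ⟨k, rfl⟩ := Nat.exists_eq_succ_of_ne_zero h.ne'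
  simp [zer_succ]

/-- The state of the fallback loop. -/
def bs (s : Store Reg Bool) (X : List Bool) (x y z w : ℕ) : Store Reg Bool := fun r => match r with
  | .X => X
  | .r2t => zer x
  | .r2tn => zer y
  | .rt => zer z
  | .rLam => zer w
  | r => s r

theorem bs_X (s : Store Reg Bool) (X l : List Bool) (x y z w : ℕ) :
    update (bs s X x y z w) .X l = bs s l x y z w := by
  funext r; cases r <;> rfl
theorem bs_r2t (s : Store Reg Bool) (X : List Bool) (x y z w k : ℕ) :
    update (bs s X x y z w) .r2t (zer k) = bs s X k y z w := by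
  funext r; cases r <;> rfl
theorem bs_r2tn (s : Store Reg Bool) (X : List Bool) (x y z w k : ℕ) :
    update (bs s X x y z w) .r2tn (zer k) = bs s X x k z w := by
  funext r; cases r <;> rfl
theorem bs_rt (s : Store Reg Bool) (X : List Bool) (x y z w k : ℕ) :
    update (bs s X x y z w) .rt (zer k) = bs s X x y k w := by
  funext r; cases r <;> rfl
theorem bs_rLam (s : Store Reg Bool) (X : List Bool) (x y z w k : ℕ) :
    update (bs s X x y z w) .rLam (zer k) = bs s X x y z k := by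
  funext r; cases r <;> rfl

theorem bs_tmp {s : Store Reg Bool} (h : TmpClean s) (X : List Bool) (x y z w : ℕ) :
    TmpClean (bs s X x y z w) := by
  intro r hr
  have := h r hr
  cases r <;> first | exact this | exact absurd hr (by decide)

theorem fallBody_runs (P : Parts) {s : Store Reg Bool} {L t m z w : ℕ} {X : List Bool}
    (ht : t < L) (hm : 2 ^ L * 2 ^ L ≤ m) (hs : TmpClean s) (hrn : s .rn = zer (2 ^ L))
    (hX : X.length = 2 ^ L * 2 ^ L) :
    Runs (fallBody P) (bs s X (2 ^ t) 0 z w) (bs s (E.bitop (2 ^ L) t X) (2 ^ (t + 1)) 0 z w)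
      ((P.c + 25) * m) := by
  have h0 : s .t0 = [] := hs _ rfl
  have h1 : s .t1 = [] := hs _ rfl
  have s1 : Runs (.mulTo .r2t .rn .r2tn .t0 .t1) (bs s X (2 ^ t) 0 z w)
      (bs s X (2 ^ t) (2 ^ t * 2 ^ L) z w) (2 ^ t * (5 * 2 ^ L + 6) + 2) := by
    refine (Runs.mulTo (s := bs s X (2 ^ t) 0 z w) (a := Reg.r2t) (b := Reg.rn) (c := Reg.r2tn)
      (t₁ := Reg.t0) (t₂ := Reg.t1) (by decide) (by decide) (by decide) (by decide) (by decide)
      (by decide) (by decide) (by decide) (by decide) (by decide) (x := 2 ^ t) (y := 2 ^ L)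
      (z := 0) rfl hrn rfl h0 h1).conv ?_ le_rfl
    rw [bs_r2tn, Nat.add_zero]
  have s2 := P.hBITOP (bs s X (2 ^ t) (2 ^ t * 2 ^ L) z w) L t m ht hm (bs_tmp hs _ _ _ _ _) hrn
    rfl rfl hX
  rw [bs_X] at s2
  have s3 := Runs.clear Reg.r2tn (bs s (E.bitop (2 ^ L) t X) (2 ^ t) (2 ^ t * 2 ^ L) z w)
  rw [show ([] : List Bool) = zer 0 from rfl, bs_r2tn] at s3
  have s4 : Runs (.dbl .r2t .t0 .t1) (bs s (E.bitop (2 ^ L) t X) (2 ^ t) 0 z w)
      (bs s (E.bitop (2 ^ L) t X) (2 ^ (t + 1)) 0 z w) (6 * 2 ^ t + 3) := by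
    refine (Runs.dbl (s := bs s (E.bitop (2 ^ L) t X) (2 ^ t) 0 z w) (r := Reg.r2t)
      (t := Reg.t0) (u := Reg.t1) (by decide) (by decide) (by decide) (x := 2 ^ t) rfl h0
      h1).conv ?_ le_rfl
    rw [bs_r2t]
    congr 1; ring
  refine (s1.seq (s2.seq (s3.seq s4))).weaken ?_
  have e1 : (bs s (E.bitop (2 ^ L) t X) (2 ^ t) (2 ^ t * 2 ^ L) z w Reg.r2tn).length =
    2 ^ t * 2 ^ L := zer_length _
  rw [e1]
  have k1 : 2 ^ t ≤ 2 ^ L := Nat.pow_le_pow_right (by omega) ht.le
  have k2 : 2 ^ t * 2 ^ L ≤ 2 ^ L * 2 ^ L := Nat.mul_le_mul_right _ k1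
  have k3 : 1 ≤ 2 ^ L := Nat.one_le_two_pow
  have k4 : 2 ^ L ≤ 2 ^ L * 2 ^ L := Nat.le_mul_self _
  nlinarith

/-- The fallback. -/
theorem fall_runs (P : Parts) {s : Store Reg Bool} {L mu m : ℕ} {D : List Bool}
    (hmu : 2 * mu + 1 ≤ L) (hm : 2 ^ L * 2 ^ L ≤ m) (hs : TmpClean s)
    (hrn : s .rn = zer (2 ^ L)) (hrB : s .rB = zer (2 ^ mu)) (hrMu : s .rMu = zer mu)
    (hrt : s .rt = []) (hlam : s .rLam = []) (hr2t : s .r2t = []) (hr2tn : s .r2tn = [])
    (hD : D.length = 2 ^ L * 2 ^ L) (hXs : s .Xsave = D) (hXl : (s .X).length ≤ m)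
    (hcz : (s .cz).length ≤ 2 * m) :
    Runs (fall P) s (update (update (update s .cz []) .Xsave []) .X (bitIter (2 ^ L) mu D (mu + 1)))
      ((P.c + 100) * m * (mu + 1)) := by
  have h0 : s .t0 = [] := hs _ rfl
  have h1 : s .t1 = [] := hs _ rfl
  let s' : Store Reg Bool := update (update s .cz []) .Xsave []
  have hs' : TmpClean s' := by
    intro r hr
    have := hs r hr
    cases r <;> first | exact this | exact absurd hr (by decide)
  have s1 := Runs.clear Reg.cz s
  have s2 := Runs.clear Reg.X (update s .cz [])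
  have s3 := Runs.flip (r := Reg.Xsave) (q := Reg.t0) (by decide)
    (update (update s .cz []) .X [])
  have s4 := Runs.flip (r := Reg.t0) (q := Reg.X) (by decide)
    (update (update (update (update s .cz []) .X []) .Xsave [])
      .t0 ((update (update s .cz []) .X [] Reg.Xsave).reverse ++
        update (update s .cz []) .X [] Reg.t0))
  have e4 : update (update (update (update (update (update s .cz []) .X []) .Xsave []) .t0
      ((update (update s .cz []) .X [] Reg.Xsave).reverse ++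
        update (update s .cz []) .X [] Reg.t0)) .t0 []) .X
      ((update (update (update (update s .cz []) .X []) .Xsave []) .t0
      ((update (update s .cz []) .X [] Reg.Xsave).reverse ++
        update (update s .cz []) .X [] Reg.t0) Reg.t0).reverse ++
      update (update (update (update s .cz []) .X []) .Xsave []) .t0
      ((update (update s .cz []) .X [] Reg.Xsave).reverse ++
        update (update s .cz []) .X [] Reg.t0) Reg.X) = bs s' D 0 0 0 0 := by
    funext r
    cases r <;> simp [s', bs, hXs, h0, hrt, hlam, hr2t, hr2tn, zer_zero]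
  rw [e4] at s4
  have s5 : Runs (.addTo .rB .r2t .t0) (bs s' D 0 0 0 0) (bs s' D (2 ^ mu) 0 0 0)
      (5 * 2 ^ mu + 2) := by
    refine (Runs.addTo (s := bs s' D 0 0 0 0) (r := Reg.rB) (q := Reg.r2t) (t := Reg.t0)
      (by decide) (by decide) (by decide) (a := 2 ^ mu) (b := 0) hrB rfl h0).conv ?_ le_rfl
    rw [bs_r2t]; rfl
  have s6 := Runs.addTo (s := bs s' D (2 ^ mu) 0 0 0) (r := Reg.rMu) (q := Reg.rt)
      (t := Reg.t0) (by decide) (by decide) (by decide) (a := mu) (b := 0) hrMu rfl h0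
  have s7 := Runs.push Reg.rt false (update (bs s' D (2 ^ mu) 0 0 0) .rt (zer (mu + 0)))
  have e7 : update (update (bs s' D (2 ^ mu) 0 0 0) .rt (zer (mu + 0))) .rt
      (false :: update (bs s' D (2 ^ mu) 0 0 0) .rt (zer (mu + 0)) .rt) =
      bs s' D (2 ^ mu) 0 (mu + 1) 0 := by
    funext r
    cases r <;> simp [s', bs, h0, zer_succ]
  rw [e7] at s7
  have hlen : ∀ i ≤ mu + 1, (bitIter (2 ^ L) mu D i).length = 2 ^ L * 2 ^ L := fun i hi =>
    bitIter_length hD i (by omega)
  have s8 := Runs.forR (p := fallBody P) (r := Reg.rt) (q := Reg.rLam) (by decide) (a := false)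
    (n := mu + 1)
    (fun i => bs s' (bitIter (2 ^ L) mu D i) (2 ^ (mu + i)) 0 (mu + 1) 0) ((P.c + 25) * m)
    rfl rfl
    (by
      intro i hi
      have h := fallBody_runs P (s := s') (L := L) (t := mu + i) (m := m)
        (z := mu + 1 - 1 - i) (w := i + 1) (X := bitIter (2 ^ L) mu D i) (by omega) hm hs' hrn
        (hlen i (by omega))
      have e1 : update (update (bs s' (bitIter (2 ^ L) mu D i) (2 ^ (mu + i)) 0 (mu + 1) 0) .rt
          (List.replicate (mu + 1 - 1 - i) false)) .rLam (List.replicate (i + 1) false) =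
          bs s' (bitIter (2 ^ L) mu D i) (2 ^ (mu + i)) 0 (mu + 1 - 1 - i) (i + 1) := by
        rw [← zer_def, ← zer_def, bs_rt, bs_rLam]
      have e2 : update (update (bs s' (bitIter (2 ^ L) mu D (i + 1)) (2 ^ (mu + (i + 1))) 0
          (mu + 1) 0) .rt
          (List.replicate (mu + 1 - 1 - i) false)) .rLam (List.replicate (i + 1) false) =
          bs s' (bitIter (2 ^ L) mu D (i + 1)) (2 ^ (mu + (i + 1))) 0 (mu + 1 - 1 - i)
            (i + 1) := by
        rw [← zer_def, ← zer_def, bs_rt, bs_rLam]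
      rw [e1, e2]
      exact h)
  have e8 : update (update (bs s' (bitIter (2 ^ L) mu D (mu + 1)) (2 ^ (mu + (mu + 1))) 0
      (mu + 1) 0) .rt (List.replicate (mu + 1) false)) .rLam [] =
      bs s' (bitIter (2 ^ L) mu D (mu + 1)) (2 ^ (mu + (mu + 1))) 0 (mu + 1) 0 := by
    rw [← zer_def, bs_rt, ← zer_zero, bs_rLam]
  have e8' : bs s' (bitIter (2 ^ L) mu D 0) (2 ^ (mu + 0)) 0 (mu + 1) 0 =
      bs s' D (2 ^ mu) 0 (mu + 1) 0 := rfl
  rw [e8, e8'] at s8
  have s9 := Runs.clear Reg.rt (bs s' (bitIter (2 ^ L) mu D (mu + 1)) (2 ^ (mu + (mu + 1))) 0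
      (mu + 1) 0)
  rw [← zer_zero, bs_rt] at s9
  have s10 := Runs.clear Reg.r2t (bs s' (bitIter (2 ^ L) mu D (mu + 1)) (2 ^ (mu + (mu + 1))) 0
      0 0)
  rw [← zer_zero, bs_r2t] at s10
  refine (s1.seq <| s2.seq <| s3.seq <| s4.seq <| s5.seq <| s6.seq <| s7.seq <| s8.seq <|
    s9.seq s10).conv ?_ ?_
  · funext r
    cases r <;> simp [s', bs, hrt, hlam, hr2t, hr2tn, zer_zero]
  · have c1 : (update s .cz [] Reg.X).length ≤ m := hXl
    have c2 : (update (update s .cz []) .X [] Reg.Xsave).length ≤ m := by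
      show (s .Xsave).length ≤ m
      rw [hXs, hD]; exact hm
    have c3 : (update (update (update (update s .cz []) .X []) .Xsave []) .t0
      ((update (update s .cz []) .X [] Reg.Xsave).reverse ++
        update (update s .cz []) .X [] Reg.t0) Reg.t0).length ≤ m := by
      show ((s .Xsave).reverse ++ s .t0).length ≤ m
      rw [h0, List.append_nil, List.length_reverse, hXs, hD]; exact hm
    have c4 : (bs s' (bitIter (2 ^ L) mu D (mu + 1)) (2 ^ (mu + (mu + 1))) 0
      (mu + 1) 0 Reg.rt).length = mu + 1 := zer_length _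
    have c5 : (bs s' (bitIter (2 ^ L) mu D (mu + 1)) (2 ^ (mu + (mu + 1))) 0
      0 0 Reg.r2t).length = 2 ^ (mu + (mu + 1)) := zer_length _
    rw [c4, c5]
    have k0 : mu + (mu + 1) ≤ L := by omega
    have k1 : 2 ^ (mu + (mu + 1)) ≤ 2 ^ L := Nat.pow_le_pow_right (by omega) k0
    have k2 : 2 ^ mu ≤ 2 ^ L := Nat.pow_le_pow_right (by omega) (by omega)
    have k3 : 1 ≤ 2 ^ L := Nat.one_le_two_pow
    have k4 : 2 ^ L ≤ 2 ^ L * 2 ^ L := Nat.le_mul_self _
    have k5 : mu < 2 ^ mu := Nat.lt_two_pow_self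
    have k6 : m * 1 ≤ m * (mu + 1) := Nat.mul_le_mul_left _ (by omega)
    have k7 : 1 ≤ m := by omega
    nlinarith

end Vale.Agent.P338
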