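import Vale.Agent.P338.H931.FastLev

/-!
# The level loop of the main program
-/

set_option linter.unusedSimpArgs false

namespace Vale.Agent.P338

open Function (update update_self update_of_ne)

theorem LL_le_log {N : ℕ} : LL N ≤ Nat.log 2 N + 1 := by
  unfold LL
  rcases Nat.lt_or_ge 1 (Nat.sqrt N) with h | h
  · have h1 : Nat.clog 2 (Nat.sqrt N) ≤ Nat.log 2 (Nat.sqrt N) + 1 :=
      Nat.clog_le_of_le_pow (Nat.lt_pow_succ_log_self (by norm_num) _).le
    have h2 : Nat.log 2 (Nat.sqrt N) ≤ Nat.log 2 N := Nat.log_mono_right (Nat.sqrt_le_self N)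
    omega
  · rw [Nat.clog_of_right_le_one h]
    omega

theorem levOk_outerSt (s N : ℕ) (X : List Bool) :
    H932.LevOk (outerSt s N X) (LL N) (128 * N + s) where
  clean := by
    intro r hr
    cases r <;> first | rfl | exact absurd hr (by decide)
  rn := rfl
  rL := rfl
  rM := rfl
  rB := rfl
  u4 := rfl
  u5 := rfl
  u6 := rfl

theorem outerSt_small {s N : ℕ} (hN : 1 ≤ N) :
    26 * (2 ^ LL N * 2 ^ LL N) ≤ 128 * N + s := by
  have h : 2 ^ LL N * 2 ^ LL N ≤ 4 * N := outer_sq_le hN
  omega

/-- The level loop of the main program, with its cost. -/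
theorem levelsOK {A : Machine} (hA : Multiplies A) (s : ℕ) : LevelsOK A s := by
  classical
  refine ⟨H932.levels (fastE A) partsE.BITOP, fun N =>
    H932.levelCost (fun a => KE * min (mulTime A (128 * N + s) + (128 * N + s))
      ((128 * N + s) * a) + 19 * 2 ^ LL N)
      (1300 * (128 * N + s) + 31 * (2 ^ LL N * 2 ^ LL N) + 4) (20 * 2 ^ LL N) (LL N) +
      4 * LL N + 2, ?_, ?_⟩
  · refine H932.levels_costBound hA (K := KE) (by norm_num) _ fun N hN => ?_
    refine ⟨LL N, 1300 * (128 * N + s), fun a => KE * min (mulTime A (128 * N + s) +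
      (128 * N + s)) ((128 * N + s) * a), LL_le_log, ?_, fun a _ => le_rfl, ?_,
      Nat.le_add_right _ _⟩
    · have := outerSt_small (s := s) (N := N) (by omega)
      omega
    · exact Nat.mul_le_mul_right _ (by unfold KE; norm_num)
  · intro N hN X hX
    have h := H932.levels_runs (Y := Sim.AReg A) (Z := Sim.ASym A) (L := LL N)
      (m := 128 * N + s) (fastE_spec hA (outerSt_small hN)) (bitop := partsE.BITOP)
      (G := 1300 * (128 * N + s))
      (fun s' t ht hc h1 h2 h3 h4 => partsE.hBITOP s' (LL N) t (128 * N + s) ht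
        (by have := outerSt_small (s := s) hN; omega) hc h1 h2 h3 h4)
      (outerSt s N X) (levOk_outerSt s N X) rfl ⟨rfl, rfl, rfl, rfl⟩ hX
    rw [update_outerSt_X] at h
    exact h

end Vale.Agent.P338
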