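import Vale.Agent.P338.H931.FastMain
import Vale.Agent.P338.H763.F1Part
import Vale.Agent.P338.H765.F3Part
import Vale.Agent.P338.H934.F2Part
import Vale.Agent.P338.H373.KernelParts
import Vale.Agent.P338.H666.SelectReg
import Vale.Agent.P338.H811.FastE3

/-!
# The parts of the fast operation, and the fast operation as used by the level loop
-/

namespace Vale.Agent.P338

open Function (update update_self update_of_ne)

/-- The programs of the fast operation. -/
noncomputable def partsE : Parts where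
  F1 := H763.F1
  KER1 := H373.KER
  KER2 := H373.KER2
  FILLx := H373.FILL .cx
  FILLy := H373.FILL .cy
  F2 := F2
  F3 := H765.F3
  FIX := H666.FIX
  BITOP := H666.BITOP
  c := 1300
  hF1 := fun s mu n Gr m x h1 h2 h3 h4 h5 h6 h7 h8 =>
    (H763.F1_part s mu n Gr m x h1 h2 h3 h4 h5 h6 h7 h8).weaken
      (Nat.mul_le_mul_right _ (by norm_num))
  hKER1 := H373.KER_part
  hKER2 := H373.KER2_part
  hFILLx := H373.FILLx_part
  hFILLy := H373.FILLy_part
  hF2 := fun s mu n Gr m y rest h1 h2 h3 h4 h5 h6 h7 h8 h9 =>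
    (F2_part s mu n Gr m y rest h1 h2 h3 h4 h5 h6 h7 h8 h9).weaken
      (Nat.mul_le_mul_right _ (by norm_num))
  hF3 := fun s mu n Gr m y rest h1 h2 h3 h4 h5 h6 h7 h8 h9 =>
    (H765.F3_part s mu n Gr m y rest h1 h2 h3 h4 h5 h6 h7 h8 h9).weaken
      (Nat.mul_le_mul_right _ (by norm_num))
  hFIX := fun s mu n Gr m h1 h2 h3 h4 h5 h6 =>
    (H666.hFIX s mu n Gr m h1 h2 h3 h4 h5 h6).weaken (Nat.mul_le_mul_right _ (by norm_num))
  hBITOP := fun s L t m h1 h2 h3 h4 h5 h6 h7 =>
    (H666.hBITOP s L t m h1 h2 h3 h4 h5 h6 h7).weaken (Nat.mul_le_mul_right _ (by norm_num))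

end Vale.Agent.P338
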