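import Vale.Agent.P338.H931.Unary
import Vale.Agent.P338.CoreSpecE

/-!
# Rulers of the fast operation
-/

set_option linter.unusedSectionVars false
set_option linter.unusedSimpArgs false

namespace Vale.Agent.P338

open Function (update update_self update_of_ne)

/-- Values of the rulers of the fast operation and of two temporaries. -/
structure RV where
  K : ℕ
  b10 : ℕ
  b11 : ℕ
  nK : ℕ
  G : ℕ
  RW : ℕ
  HZ : ℕ
  KR : ℕ
  Rot : ℕ
  x2 : ℕ
  x3 : ℕ

/-- The store `s` with the rulers of the fast operation set. -/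
def setRV (s : Store Reg Bool) (v : RV) : Store Reg Bool := fun r => match r with
  | .rK => zer v.K
  | .r10b => zer v.b10
  | .r11b => zer v.b11
  | .rnK => zer v.nK
  | .rG => zer v.G
  | .rRW => zer v.RW
  | .rHZ => zer v.HZ
  | .rKR => zer v.KR
  | .rRot => zer v.Rot
  | .t2 => zer v.x2
  | .t3 => zer v.x3
  | r => s r

theorem setRV_K (s : Store Reg Bool) (v : RV) (x : ℕ) :
    update (setRV s v) .rK (zer x) = setRV s { v with K := x } := by
  funext r; cases r <;> rfl
theorem setRV_b10 (s : Store Reg Bool) (v : RV) (x : ℕ) :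
    update (setRV s v) .r10b (zer x) = setRV s { v with b10 := x } := by
  funext r; cases r <;> rfl
theorem setRV_b11 (s : Store Reg Bool) (v : RV) (x : ℕ) :
    update (setRV s v) .r11b (zer x) = setRV s { v with b11 := x } := by
  funext r; cases r <;> rfl
theorem setRV_nK (s : Store Reg Bool) (v : RV) (x : ℕ) :
    update (setRV s v) .rnK (zer x) = setRV s { v with nK := x } := by
  funext r; cases r <;> rfl
theorem setRV_G (s : Store Reg Bool) (v : RV) (x : ℕ) :
    update (setRV s v) .rG (zer x) = setRV s { v with G := x } := by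
  funext r; cases r <;> rfl
theorem setRV_RW (s : Store Reg Bool) (v : RV) (x : ℕ) :
    update (setRV s v) .rRW (zer x) = setRV s { v with RW := x } := by
  funext r; cases r <;> rfl
theorem setRV_HZ (s : Store Reg Bool) (v : RV) (x : ℕ) :
    update (setRV s v) .rHZ (zer x) = setRV s { v with HZ := x } := by
  funext r; cases r <;> rfl
theorem setRV_KR (s : Store Reg Bool) (v : RV) (x : ℕ) :
    update (setRV s v) .rKR (zer x) = setRV s { v with KR := x } := by
  funext r; cases r <;> rfl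
theorem setRV_Rot (s : Store Reg Bool) (v : RV) (x : ℕ) :
    update (setRV s v) .rRot (zer x) = setRV s { v with Rot := x } := by
  funext r; cases r <;> rfl
theorem setRV_x2 (s : Store Reg Bool) (v : RV) (x : ℕ) :
    update (setRV s v) .t2 (zer x) = setRV s { v with x2 := x } := by
  funext r; cases r <;> rfl
theorem setRV_x3 (s : Store Reg Bool) (v : RV) (x : ℕ) :
    update (setRV s v) .t3 (zer x) = setRV s { v with x3 := x } := by
  funext r; cases r <;> rfl

/-- All rulers zero. -/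
def RV.zero : RV := ⟨0, 0, 0, 0, 0, 0, 0, 0, 0, 0, 0⟩

/-- The rulers of the fast operation. -/
def RV.std (n b : ℕ) : RV where
  K := 2 * b
  b10 := 10 * b
  b11 := 11 * b
  nK := n / (2 * b)
  G := n / (2 * b * b)
  RW := E.rowW n b
  HZ := E.rowW n b - 2 * b - 1
  KR := 2 * b * E.rowW n b
  Rot := 2 * b * b * n
  x2 := 0
  x3 := 0

/-- The program computing the rulers of the fast operation from `rn` and `rB`. -/
def prepF : Prog Reg Bool :=
  .seq (.addTo .rB .rK .t0) <| .seq (.addTo .rB .rK .t0) <|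
  .seq (.addTo .rK .r10b .t0) <| .seq (.addTo .rK .r10b .t0) <| .seq (.addTo .rK .r10b .t0) <|
  .seq (.addTo .rK .r10b .t0) <| .seq (.addTo .rK .r10b .t0) <|
  .seq (.addTo .r10b .r11b .t0) <| .seq (.addTo .rB .r11b .t0) <|
  .seq (.addTo .rn .t2 .t0) <| .seq (.divTo .t2 .rK .rnK .t0) <|
  .seq (.addTo .rnK .t2 .t0) <| .seq (.divTo .t2 .rB .rG .t0) <|
  .seq (.addTo .r11b .t3 .t0) <| .seq (.addTo .rK .t3 .t0) <|
  .seq (.mulTo .rn .t3 .rRW .t0 .t1) <| .seq (.clear .t3) <|
  .seq (.addTo .rRW .rHZ .t0) <| .seq (.skip .rK .t0 .rHZ) <| .seq (.pop .rHZ) <|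
  .seq (.mulTo .rK .rRW .rKR .t0 .t1) <|
  .seq (.mulTo .rK .rB .t3 .t0 .t1) <| .seq (.mulTo .t3 .rn .rRot .t0 .t1) (.clear .t3)

/-- Clear the rulers of the fast operation. -/
def cleanF : Prog Reg Bool :=
  .seq (.clear .rK) <| .seq (.clear .r10b) <| .seq (.clear .r11b) <| .seq (.clear .rnK) <|
  .seq (.clear .rG) <| .seq (.clear .rRW) <| .seq (.clear .rHZ) <| .seq (.clear .rKR)
    (.clear .rRot)

section

variable {s : Store Reg Bool} {v : RV}

theorem clearRV {r : Reg} {v' : RV} (h : update (setRV s v) r (zer 0) = setRV s v')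
    {x : ℕ} (hx : setRV s v r = zer x) :
    Runs (.clear r) (setRV s v) (setRV s v') (2 * x + 1) := by
  refine (Runs.clear r (setRV s v)).conv ?_ (by rw [hx, zer_length])
  rw [← h]; rfl

theorem addRV {r q : Reg} {v' : RV} {a b : ℕ} (hrq : r ≠ q) (hrt : r ≠ .t0) (hqt : q ≠ .t0)
    (hr : setRV s v r = zer a) (hq : setRV s v q = zer b) (ht : s .t0 = [])
    (h : update (setRV s v) q (zer (a + b)) = setRV s v') :
    Runs (.addTo r q .t0) (setRV s v) (setRV s v') (5 * a + 2) :=
  (Runs.addTo hrq hrt hqt hr hq ht).conv h le_rfl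

theorem mulRV {r₁ r₂ q : Reg} {v' : RV} {a b c : ℕ} (h12 : r₁ ≠ r₂) (h1q : r₁ ≠ q)
    (h2q : r₂ ≠ q) (h10 : r₁ ≠ .t0) (h11 : r₁ ≠ .t1) (h20 : r₂ ≠ .t0) (h21 : r₂ ≠ .t1)
    (hq0 : q ≠ .t0) (hq1 : q ≠ .t1)
    (hr₁ : setRV s v r₁ = zer a) (hr₂ : setRV s v r₂ = zer b) (hq : setRV s v q = zer c)
    (ht : s .t0 = []) (ht1 : s .t1 = [])
    (h : update (setRV s v) q (zer (a * b + c)) = setRV s v') :
    Runs (.mulTo r₁ r₂ q .t0 .t1) (setRV s v) (setRV s v') (a * (5 * b + 6) + 2) :=
  (Runs.mulTo h12 h1q h10 h11 h2q h20 h21 hq0 hq1 (by decide) hr₁ hr₂ hq ht ht1).conv h le_rfl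

theorem divRV {r q : Reg} {v' : RV} {x y z : ℕ} (hsr : Reg.t2 ≠ r) (hsd : Reg.t2 ≠ q)
    (hrd : r ≠ q) (hrq : r ≠ .t0) (hdq : q ≠ .t0) (hy : 0 < y)
    (hsrc : setRV s v .t2 = zer (x * y)) (hr : setRV s v r = zer y) (hd : setRV s v q = zer z)
    (ht : s .t0 = [])
    (h : update (update (setRV s v) .t2 (zer 0)) q (zer (x + z)) = setRV s v') :
    Runs (.divTo .t2 r q .t0) (setRV s v) (setRV s v') (x * (5 * y + 4) + 1) :=
  (Runs.divTo hsr hsd (by decide) hrd hrq hdq hy hsrc hr hd ht).conv h le_rfl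

theorem prepF_runs {n b c : ℕ} (hb : 0 < b) (hn : n = 2 * b * b * c) (hc : 0 < c)
    (hrn : s .rn = zer n) (hrB : s .rB = zer b) (h0 : s .t0 = []) (h1 : s .t1 = []) :
    Runs prepF (setRV s .zero) (setRV s (.std n b)) (1000 * (n * n)) := by
  have hbb : 2 * (b * b) ≤ n := by
    rw [hn]; nlinarith [Nat.mul_pos hb hc, Nat.mul_pos (Nat.mul_pos hb hb) hc]
  have hbn : b ≤ n := by nlinarith
  have hnK : n = b * c * (2 * b) := by rw [hn]; ring
  have hnK' : n / (2 * b) = b * c := by
    rw [hnK]; exact Nat.mul_div_cancel _ (by omega)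
  have hG' : n / (2 * b * b) = c := by
    rw [hn, Nat.mul_div_cancel_left _ (Nat.mul_pos (by omega) hb)]
  have hRW : E.rowW n b = n * (13 * b) := rfl
  have hRWpos : 2 * b + 1 ≤ n * (13 * b) := by nlinarith
  let v1 : RV := { RV.zero with K := b }
  let v2 : RV := { RV.zero with K := 2 * b }
  let w (x : ℕ) : RV := { v2 with b10 := x }
  let v3 : RV := { v2 with b10 := 10 * b }
  let v4 : RV := { v3 with b11 := 10 * b }
  let v5 : RV := { v3 with b11 := 11 * b }
  let v6 : RV := { v5 with x2 := n }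
  let v7 : RV := { v5 with nK := b * c }
  let v8 : RV := { v7 with x2 := b * c }
  let v9 : RV := { v7 with G := c }
  let v10 : RV := { v9 with x3 := 11 * b }
  let v11 : RV := { v9 with x3 := 13 * b }
  let v12 : RV := { v11 with RW := n * (13 * b) }
  let v13 : RV := { v12 with x3 := 0 }
  let v14 : RV := { v13 with HZ := n * (13 * b) }
  let v15 : RV := { v13 with HZ := n * (13 * b) - 2 * b }
  let v16 : RV := { v13 with HZ := n * (13 * b) - 2 * b - 1 }
  let v17 : RV := { v16 with KR := 2 * b * (n * (13 * b)) }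
  let v18 : RV := { v17 with x3 := 2 * b * b }
  let v19 : RV := { v18 with Rot := 2 * b * b * n }
  have s1 : Runs (.addTo .rB .rK .t0) (setRV s .zero) (setRV s v1) (5 * b + 2) :=
    addRV (b := 0) (by decide) (by decide) (by decide) hrB rfl h0 (setRV_K _ _ _)
  have s2 : Runs (.addTo .rB .rK .t0) (setRV s v1) (setRV s v2) (5 * b + 2) :=
    addRV (b := b) (by decide) (by decide) (by decide) hrB rfl h0
      (by rw [setRV_K, ← Nat.two_mul])
  have sw (x y : ℕ) (hy : 2 * b + x = y) :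
      Runs (.addTo .rK .r10b .t0) (setRV s (w x)) (setRV s (w y)) (5 * (2 * b) + 2) :=
    addRV (b := x) (by decide) (by decide) (by decide) rfl rfl h0 (by rw [setRV_b10, hy])
  have s3 : Runs (.addTo .r10b .r11b .t0) (setRV s v3) (setRV s v4) (5 * (10 * b) + 2) :=
    addRV (b := 0) (by decide) (by decide) (by decide) rfl rfl h0 (setRV_b11 _ _ _)
  have s4 : Runs (.addTo .rB .r11b .t0) (setRV s v4) (setRV s v5) (5 * b + 2) :=
    addRV (b := 10 * b) (by decide) (by decide) (by decide) hrB rfl h0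
      (by rw [setRV_b11, show b + 10 * b = 11 * b by ring])
  have s5 : Runs (.addTo .rn .t2 .t0) (setRV s v5) (setRV s v6) (5 * n + 2) :=
    addRV (b := 0) (by decide) (by decide) (by decide) hrn rfl h0 (setRV_x2 _ _ _)
  have s6 : Runs (.divTo .t2 .rK .rnK .t0) (setRV s v6) (setRV s v7)
      (b * c * (5 * (2 * b) + 4) + 1) :=
    divRV (z := 0) (by decide) (by decide) (by decide) (by decide) (by decide) (by omega)
      (by rw [← hnK]; rfl) rfl rfl h0 (by rw [setRV_x2, setRV_nK]; rfl)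
  have s7 : Runs (.addTo .rnK .t2 .t0) (setRV s v7) (setRV s v8) (5 * (b * c) + 2) :=
    addRV (b := 0) (by decide) (by decide) (by decide) rfl rfl h0 (setRV_x2 _ _ _)
  have s8 : Runs (.divTo .t2 .rB .rG .t0) (setRV s v8) (setRV s v9)
      (c * (5 * b + 4) + 1) :=
    divRV (z := 0) (by decide) (by decide) (by decide) (by decide) (by decide) hb
      (by rw [Nat.mul_comm c b]; rfl) hrB rfl h0 (by rw [setRV_x2, setRV_G]; rfl)
  have s9 : Runs (.addTo .r11b .t3 .t0) (setRV s v9) (setRV s v10) (5 * (11 * b) + 2) :=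
    addRV (b := 0) (by decide) (by decide) (by decide) rfl rfl h0 (setRV_x3 _ _ _)
  have s10 : Runs (.addTo .rK .t3 .t0) (setRV s v10) (setRV s v11) (5 * (2 * b) + 2) :=
    addRV (b := 11 * b) (by decide) (by decide) (by decide) rfl rfl h0
      (by rw [setRV_x3, show 2 * b + 11 * b = 13 * b by ring])
  have s11 : Runs (.mulTo .rn .t3 .rRW .t0 .t1) (setRV s v11) (setRV s v12)
      (n * (5 * (13 * b) + 6) + 2) :=
    mulRV (c := 0) (by decide) (by decide) (by decide) (by decide) (by decide) (by decide)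
      (by decide) (by decide) (by decide) hrn rfl rfl h0 h1 (setRV_RW _ _ _)
  have s12 : Runs (.clear .t3) (setRV s v12) (setRV s v13) (2 * (13 * b) + 1) :=
    clearRV (setRV_x3 _ _ _) rfl
  have s13 : Runs (.addTo .rRW .rHZ .t0) (setRV s v13) (setRV s v14)
      (5 * (n * (13 * b)) + 2) :=
    addRV (b := 0) (by decide) (by decide) (by decide) rfl rfl h0 (setRV_HZ _ _ _)
  have s14 : Runs (.skip .rK .t0 .rHZ) (setRV s v14) (setRV s v15) (5 * (2 * b) + 2) := by
    have h := Runs.skip (s := setRV s v14) (r := Reg.rK) (q := Reg.t0) (src := Reg.rHZ)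
      (by decide) (by decide) (by decide) (a := false) (n := 2 * b) (u := zer (2 * b))
      (v := zer (n * (13 * b) - 2 * b)) rfl h0
      (by rw [zer_append, show 2 * b + (n * (13 * b) - 2 * b) = n * (13 * b) by omega]; rfl)
      (zer_length _)
    rwa [setRV_HZ] at h
  have s15 : Runs (.pop .rHZ) (setRV s v15) (setRV s v16) 1 := by
    have h := Runs.pop Reg.rHZ (setRV s v15)
    have h' : (setRV s v15 Reg.rHZ).tail = zer (n * (13 * b) - 2 * b - 1) :=
      List.tail_replicate
    rw [h', setRV_HZ] at h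
    exact h
  have s16 : Runs (.mulTo .rK .rRW .rKR .t0 .t1) (setRV s v16) (setRV s v17)
      (2 * b * (5 * (n * (13 * b)) + 6) + 2) :=
    mulRV (c := 0) (by decide) (by decide) (by decide) (by decide) (by decide) (by decide)
      (by decide) (by decide) (by decide) rfl rfl rfl h0 h1 (setRV_KR _ _ _)
  have s17 : Runs (.mulTo .rK .rB .t3 .t0 .t1) (setRV s v17) (setRV s v18)
      (2 * b * (5 * b + 6) + 2) :=
    mulRV (c := 0) (by decide) (by decide) (by decide) (by decide) (by decide) (by decide)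
      (by decide) (by decide) (by decide) rfl hrB rfl h0 h1 (setRV_x3 _ _ _)
  have s18 : Runs (.mulTo .t3 .rn .rRot .t0 .t1) (setRV s v18) (setRV s v19)
      (2 * b * b * (5 * n + 6) + 2) :=
    mulRV (c := 0) (by decide) (by decide) (by decide) (by decide) (by decide) (by decide)
      (by decide) (by decide) (by decide) rfl hrn rfl h0 h1 (setRV_Rot _ _ _)
  have s19 : Runs (.clear .t3) (setRV s v19) (setRV s (.std n b)) (2 * (2 * b * b) + 1) := by
    refine clearRV ?_ rfl
    rw [setRV_x3]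
    simp only [RV.std, hnK', hG', hRW]
    rfl
  have hw1 := sw 0 (2 * b) (by ring)
  have hw2 := sw (2 * b) (4 * b) (by ring)
  have hw3 := sw (4 * b) (6 * b) (by ring)
  have hw4 := sw (6 * b) (8 * b) (by ring)
  have hw5 := sw (8 * b) (10 * b) (by ring)
  refine (s1.seq <| s2.seq <| hw1.seq <| hw2.seq <| hw3.seq <| hw4.seq <| hw5.seq <| s3.seq <|
    s4.seq <| s5.seq <| s6.seq <| s7.seq <| s8.seq <| s9.seq <| s10.seq <| s11.seq <| s12.seq <|
    s13.seq <| s14.seq <| s15.seq <| s16.seq <| s17.seq <| s18.seq s19).weaken ?_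
  have k1 : b * n ≤ n * n := Nat.mul_le_mul_right _ hbn
  have k2 : 2 * (b * b) * n ≤ n * n := Nat.mul_le_mul_right _ hbb
  have k3 : 1 ≤ n := by omega
  have k4 : n ≤ n * n := Nat.le_mul_self n
  have k5 : b * c * b ≤ n := by rw [hn]; nlinarith [Nat.mul_pos (Nat.mul_pos hb hb) hc]
  have k6 : b * c ≤ n := by nlinarith [Nat.mul_pos hb hc]
  have k7 : c ≤ n := by nlinarith [Nat.mul_pos hb hc]
  have k8 : b * b ≤ n * n := Nat.mul_le_mul hbn hbn
  nlinarith

/-- Clearing the rulers. -/
theorem cleanF_runs {n b c : ℕ} (hb : 0 < b) (hn : n = 2 * b * b * c) (hc : 0 < c) :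
    Runs cleanF (setRV s (.std n b)) (setRV s .zero) (200 * (n * n)) := by
  have hbb : 2 * (b * b) ≤ n := by
    rw [hn]; nlinarith [Nat.mul_pos hb hc, Nat.mul_pos (Nat.mul_pos hb hb) hc]
  have hbn : b ≤ n := by nlinarith
  have hnK : n / (2 * b) ≤ n := Nat.div_le_self _ _
  have hG : n / (2 * b * b) ≤ n := Nat.div_le_self _ _
  have hRW : E.rowW n b = n * (13 * b) := rfl
  let v0 : RV := RV.std n b
  let v1 : RV := { v0 with K := 0 }
  let v2 : RV := { v1 with b10 := 0 }
  let v3 : RV := { v2 with b11 := 0 }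
  let v4 : RV := { v3 with nK := 0 }
  let v5 : RV := { v4 with G := 0 }
  let v6 : RV := { v5 with RW := 0 }
  let v7 : RV := { v6 with HZ := 0 }
  let v8 : RV := { v7 with KR := 0 }
  have s1 : Runs (.clear .rK) (setRV s v0) (setRV s v1) (2 * (2 * b) + 1) :=
    clearRV (setRV_K _ _ _) rfl
  have s2 : Runs (.clear .r10b) (setRV s v1) (setRV s v2) (2 * (10 * b) + 1) :=
    clearRV (setRV_b10 _ _ _) rfl
  have s3 : Runs (.clear .r11b) (setRV s v2) (setRV s v3) (2 * (11 * b) + 1) :=
    clearRV (setRV_b11 _ _ _) rfl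
  have s4 : Runs (.clear .rnK) (setRV s v3) (setRV s v4) (2 * (n / (2 * b)) + 1) :=
    clearRV (setRV_nK _ _ _) rfl
  have s5 : Runs (.clear .rG) (setRV s v4) (setRV s v5) (2 * (n / (2 * b * b)) + 1) :=
    clearRV (setRV_G _ _ _) rfl
  have s6 : Runs (.clear .rRW) (setRV s v5) (setRV s v6) (2 * (n * (13 * b)) + 1) :=
    clearRV (setRV_RW _ _ _) rfl
  have s7 : Runs (.clear .rHZ) (setRV s v6) (setRV s v7)
      (2 * (n * (13 * b) - 2 * b - 1) + 1) :=
    clearRV (setRV_HZ _ _ _) rfl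
  have s8 : Runs (.clear .rKR) (setRV s v7) (setRV s v8) (2 * (2 * b * (n * (13 * b))) + 1) :=
    clearRV (setRV_KR _ _ _) rfl
  have s9 : Runs (.clear .rRot) (setRV s v8) (setRV s .zero) (2 * (2 * b * b * n) + 1) :=
    clearRV (setRV_Rot _ _ _) rfl
  refine (s1.seq <| s2.seq <| s3.seq <| s4.seq <| s5.seq <| s6.seq <| s7.seq <| s8.seq
    s9).weaken ?_
  have k1 : b * n ≤ n * n := Nat.mul_le_mul_right _ hbn
  have k2 : 2 * (b * b) * n ≤ n * n := Nat.mul_le_mul_right _ hbb
  have k3 : 1 ≤ n := by omega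
  have k4 : n ≤ n * n := Nat.le_mul_self n
  have k9 : n * (13 * b) - 2 * b - 1 ≤ n * (13 * b) := by omega
  nlinarith

end

end Vale.Agent.P338
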